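import Vale.Agent.P178.Bdl.B1

/-!
Chains of primes: a prime of large height containing all but one of the generators of a
prime, and additivity inequalities for heights.
-/

namespace Vale.Agent.P178.All

open Ideal

/-- The height of the last member of a chain in the quotient by the first one. -/
theorem length_le_height_map {R : Type*} [CommRing R] (l : LTSeries (PrimeSpectrum R)) :
    (l.length : ℕ∞) ≤
      (l.last.asIdeal.map (Ideal.Quotient.mk l.head.asIdeal)).height := by
  let p := l.head.asIdeal
  have hp : ∀ i, p ≤ (l i).asIdeal := fun i => l.head_le i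
  have hprime : ∀ i, ((l i).asIdeal.map (Ideal.Quotient.mk p)).IsPrime := fun i =>
    Ideal.isPrime_map_quotientMk_of_isPrime (hp i)
  have hback : ∀ i, ((l i).asIdeal.map (Ideal.Quotient.mk p)).comap (Ideal.Quotient.mk p) =
      (l i).asIdeal := by
    intro i
    rw [Ideal.comap_map_of_surjective _ Ideal.Quotient.mk_surjective, ← RingHom.ker_eq_comap_bot,
      Ideal.mk_ker]
    exact sup_eq_left.mpr (hp i)
  let l' : LTSeries (PrimeSpectrum (R ⧸ p)) :=
    { length := l.length
      toFun := fun i => ⟨(l i).asIdeal.map (Ideal.Quotient.mk p), hprime i⟩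
      step := fun i => by
        have h : l i.castSucc < l i.succ := l.step i
        change (⟨(l i.castSucc).asIdeal.map (Ideal.Quotient.mk p), hprime _⟩ :
          PrimeSpectrum (R ⧸ p)) < ⟨(l i.succ).asIdeal.map (Ideal.Quotient.mk p), hprime _⟩
        refine lt_of_le_of_ne (Ideal.map_mono h.le) fun he => ?_
        have h1 := congrArg (fun q : PrimeSpectrum (R ⧸ p) =>
          q.asIdeal.comap (Ideal.Quotient.mk p)) he
        simp only [hback] at h1
        exact h.ne (PrimeSpectrum.ext h1) }
  have h1 : (l'.length : ℕ∞) ≤ Order.height l'.last := Order.length_le_height_last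
  rw [← PrimeSpectrum.height_eq_orderHeight] at h1
  exact h1

/-- A prime below `I` over which `I` has full height. -/
theorem exists_prime_full {R : Type*} [CommRing R] [IsNoetherianRing R] (I : Ideal R)
    [I.IsPrime] : ∃ p : Ideal R, p.IsPrime ∧ p ≤ I ∧
      I.height ≤ (I.map (Ideal.Quotient.mk p)).height := by
  obtain ⟨l, hl, hlen⟩ := I.exists_ltSeries_length_eq_height
  refine ⟨l.head.asIdeal, inferInstance, ?_, ?_⟩
  · have h1 := LTSeries.head_le_last l
    rw [hl] at h1
    exact h1
  · have h1 := length_le_height_map l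
    rw [hl] at h1
    rw [← hlen]
    exact h1

theorem exists_prime_aux {T : Type*} [CommRing T] [IsNoetherianRing T] (I : Ideal T)
    [hI : I.IsPrime] (k : ℕ) : ∀ (p : Ideal T) [p.IsPrime], p ≤ I → ∀ x : Fin (k + 1) → T,
      (∀ i, x i ∈ I) → I ∈ (p ⊔ span (Set.range x)).minimalPrimes →
      ((k + 1 : ℕ) : ℕ∞) ≤ (I.map (Ideal.Quotient.mk p)).height →
      ∃ q : Ideal T, q.IsPrime ∧ p ≤ q ∧ q ≤ I ∧ q ≠ I ∧ (∀ i : Fin k, x i.castSucc ∈ q) ∧
        p.height + k ≤ q.height := by
  induction k with
  | zero =>
    intro p hp hpI x _ _ hht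
    refine ⟨p, hp, le_rfl, hpI, ?_, fun i => i.elim0, by simp⟩
    rintro rfl
    rw [Ideal.map_quotient_self] at hht
    have : ((0 + 1 : ℕ) : ℕ∞) ≤ 0 := by
      refine hht.trans (le_of_eq ?_)
      exact Ideal.height_bot
    simp at this
  | succ k ih =>
    intro p hp hpI x hx hmin hht
    -- the first element is not in `p`
    have hIp : (I.map (Ideal.Quotient.mk p)).IsPrime :=
      Ideal.isPrime_map_quotientMk_of_isPrime hpI
    have hx0 : x 0 ∉ p := by
      intro h0
      have h1 : p ⊔ span (Set.range x) = span (Set.range (x ∘ Fin.succ)) ⊔ p := by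
        apply le_antisymm
        · refine sup_le le_sup_right ?_
          rw [Ideal.span_le]
          rintro _ ⟨i, rfl⟩
          refine Fin.cases ?_ (fun j => ?_) i
          · exact Submodule.mem_sup_right h0
          · exact Submodule.mem_sup_left (Ideal.subset_span ⟨j, rfl⟩)
        · refine sup_le ?_ le_sup_left
          rw [Ideal.span_le]
          rintro _ ⟨j, rfl⟩
          exact Submodule.mem_sup_right (Ideal.subset_span ⟨j.succ, rfl⟩)
      have h2 : I.map (Ideal.Quotient.mk p) ∈
          (span (Set.range (Ideal.Quotient.mk p ∘ (x ∘ Fin.succ)))).minimalPrimes := by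
        rw [Set.range_comp, ← Ideal.map_span,
          Ideal.minimalPrimes_map_of_surjective Ideal.Quotient.mk_surjective, Ideal.mk_ker,
          ← h1]
        exact ⟨I, hmin, rfl⟩
      have h3 := Ideal.height_le_card_of_mem_minimalPrimes_span (Set.finite_range _) h2
      have h4 : (Set.range (Ideal.Quotient.mk p ∘ (x ∘ Fin.succ))).ncard ≤ k + 1 := by
        have := Set.ncard_image_le (f := Ideal.Quotient.mk p ∘ (x ∘ Fin.succ))
          (s := (Set.univ : Set (Fin (k + 1)))) Set.finite_univ
        rw [Set.image_univ, Set.ncard_univ, Nat.card_fin] at this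
        exact this
      have h5 : ((k + 1 + 1 : ℕ) : ℕ∞) ≤ ((k + 1 : ℕ) : ℕ∞) :=
        hht.trans (h3.trans (by exact_mod_cast h4))
      have h6 : k + 1 + 1 ≤ k + 1 := by exact_mod_cast h5
      omega
    -- one step up
    let B := T ⧸ p
    let r : B := Ideal.Quotient.mk p (x 0)
    let I' : Ideal B := I.map (Ideal.Quotient.mk p)
    have hr : r ∈ I' := Ideal.mem_map_of_mem _ (hx 0)
    let J : Ideal (B ⧸ span {r}) := I'.map (Ideal.Quotient.mk (span {r}))
    have hJ : J.IsPrime := Ideal.isPrime_map_quotientMk_of_isPrime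
      (by rwa [Ideal.span_singleton_le_iff_mem])
    have h1 : ((k + 1 : ℕ) : ℕ∞) ≤ J.height := by
      have h2 := Ideal.height_le_height_add_one_of_mem hr
      have h3 : ((k + 1 : ℕ) : ℕ∞) + 1 ≤ J.height + 1 := by
        refine le_trans ?_ h2
        refine le_trans (le_of_eq ?_) hht
        push_cast
        ring
      exact (ENat.add_le_add_iff_right ENat.one_ne_top).1 h3
    obtain ⟨l, hl, hlen⟩ := J.exists_ltSeries_length_eq_height
    let f : T →+* B ⧸ span {r} := (Ideal.Quotient.mk (span {r})).comp (Ideal.Quotient.mk p)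
    have hf : Function.Surjective f :=
      Ideal.Quotient.mk_surjective.comp Ideal.Quotient.mk_surjective
    let l' : LTSeries (PrimeSpectrum T) :=
      l.map (PrimeSpectrum.comap f) (RingHom.strictMono_comap_of_surjective hf)
    have hlast : l'.last.asIdeal = I := by
      have h2 : l'.last = PrimeSpectrum.comap f l.last := rfl
      rw [h2, hl]
      change J.comap f = I
      have h3 : J = I.map f := by
        rw [← Ideal.map_map]
      rw [h3, Ideal.comap_map_of_surjective f hf]
      refine sup_eq_left.mpr ?_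
      intro y hy
      have h4 : Ideal.Quotient.mk (span {r}) (Ideal.Quotient.mk p y) = 0 := hy
      rw [Ideal.Quotient.eq_zero_iff_mem, Ideal.mem_span_singleton'] at h4
      obtain ⟨c, hc⟩ := h4
      obtain ⟨c, rfl⟩ := Ideal.Quotient.mk_surjective c
      rw [← map_mul, Ideal.Quotient.eq] at hc
      have h5 : y = c * x 0 - (c * x 0 - y) := by ring
      rw [h5]
      exact sub_mem (I.mul_mem_left _ (hx 0)) (hpI hc)
    let p' : Ideal T := l'.head.asIdeal
    have hpp' : p ≤ p' := by
      intro y hy
      change f y ∈ l.head.asIdeal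
      have : f y = 0 := by
        change Ideal.Quotient.mk _ (Ideal.Quotient.mk p y) = 0
        rw [Ideal.Quotient.eq_zero_iff_mem.2 hy, map_zero]
      rw [this]
      exact zero_mem _
    have hx0p' : x 0 ∈ p' := by
      change f (x 0) ∈ l.head.asIdeal
      have : f (x 0) = 0 :=
        Ideal.Quotient.eq_zero_iff_mem.2 (Ideal.mem_span_singleton_self r)
      rw [this]
      exact zero_mem _
    have hp'I : p' ≤ I := by
      have h2 := LTSeries.head_le_last l'
      have h3 : l'.head.asIdeal ≤ l'.last.asIdeal := h2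
      rwa [hlast] at h3
    have hht' : ((k + 1 : ℕ) : ℕ∞) ≤ (I.map (Ideal.Quotient.mk p')).height := by
      have h2 := length_le_height_map l'
      rw [hlast] at h2
      refine le_trans ?_ h2
      have h3 : l'.length = l.length := rfl
      rw [h3, hlen]
      exact h1
    have hlt : p < p' := lt_of_le_of_ne hpp' fun h => hx0 (h ▸ hx0p')
    have hmin' : I ∈ (p' ⊔ span (Set.range (x ∘ Fin.succ))).minimalPrimes := by
      refine ⟨⟨hI, sup_le hp'I ?_⟩, ?_⟩
      · rw [Ideal.span_le]
        rintro _ ⟨j, rfl⟩
        exact hx _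
      · rintro q ⟨hq, hqle⟩ hqI
        refine hmin.2 ⟨hq, ?_⟩ hqI
        refine sup_le (hpp'.trans (le_sup_left.trans hqle)) ?_
        rw [Ideal.span_le]
        rintro _ ⟨i, rfl⟩
        refine Fin.cases ?_ (fun j => ?_) i
        · exact (le_sup_left.trans hqle) hx0p'
        · exact hqle (Submodule.mem_sup_right (Ideal.subset_span ⟨j, rfl⟩))
    obtain ⟨q, hq, h2, h3, h4, h5, h6⟩ := ih p' hp'I (x ∘ Fin.succ) (fun i => hx _) hmin' hht'
    refine ⟨q, hq, hpp'.trans h2, h3, h4, ?_, ?_⟩
    · intro i
      refine Fin.cases ?_ (fun j => ?_) i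
      · exact h2 hx0p'
      · have := h5 j
        exact this
    · have h7 := Ideal.height_add_one_le_of_lt_of_isPrime hlt
      calc p.height + ((k + 1 : ℕ) : ℕ∞) = (p.height + 1) + k := by push_cast; ring
        _ ≤ p'.height + k := by gcongr
        _ ≤ q.height := h6

/-- If a prime `I` of height `k + 1` is minimal over `k + 1` of its elements, there is a prime
of height at least `k` properly below `I` which contains the first `k` of them. -/
theorem exists_prime_of_gens {T : Type*} [CommRing T] [IsNoetherianRing T] (I : Ideal T)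
    [hI : I.IsPrime] (k : ℕ) (x : Fin (k + 1) → T) (hx : ∀ i, x i ∈ I)
    (hmin : I ∈ (span (Set.range x)).minimalPrimes) (hht : ((k + 1 : ℕ) : ℕ∞) ≤ I.height) :
    ∃ q : Ideal T, q.IsPrime ∧ q ≤ I ∧ q ≠ I ∧ (∀ i : Fin k, x i.castSucc ∈ q) ∧
      (k : ℕ∞) ≤ q.height := by
  obtain ⟨p, hp, hpI, h⟩ := exists_prime_full I
  have hmin' : I ∈ (p ⊔ span (Set.range x)).minimalPrimes := by
    refine ⟨⟨hI, sup_le hpI hmin.1.2⟩, ?_⟩
    rintro q ⟨hq, hqle⟩ hqI
    exact hmin.2 ⟨hq, le_sup_right.trans hqle⟩ hqI
  obtain ⟨q, hq, -, h3, h4, h5, h6⟩ := exists_prime_aux I k p hpI x hx hmin' (hht.trans h)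
  exact ⟨q, hq, h3, h4, h5, le_trans le_add_self h6⟩

/-- Heights add up to at most the height of the larger prime. -/
theorem height_add_height_map_le {R : Type*} [CommRing R] [IsNoetherianRing R] (I n : Ideal R)
    [I.IsPrime] [n.IsPrime] (hIn : I ≤ n) :
    I.height + (n.map (Ideal.Quotient.mk I)).height ≤ n.height := by
  have hn' : (n.map (Ideal.Quotient.mk I)).IsPrime := Ideal.isPrime_map_quotientMk_of_isPrime hIn
  obtain ⟨l, hl, hlen⟩ := (n.map (Ideal.Quotient.mk I)).exists_ltSeries_length_eq_height
  rw [← hlen]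
  have key : ∀ i : Fin (l.length + 1),
      I.height + ((i : ℕ) : ℕ∞) ≤ ((l i).asIdeal.comap (Ideal.Quotient.mk I)).height := by
    intro i
    induction i using Fin.induction with
    | zero =>
      simp only [Fin.val_zero, Nat.cast_zero, add_zero]
      apply Ideal.height_mono
      intro y hy
      rw [Ideal.mem_comap, Ideal.Quotient.eq_zero_iff_mem.2 hy]
      exact zero_mem _
    | succ i ih =>
      have h1 : (l i.castSucc).asIdeal.comap (Ideal.Quotient.mk I) <
          (l i.succ).asIdeal.comap (Ideal.Quotient.mk I) := by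
        have h2 : l i.castSucc < l i.succ := l.step i
        refine lt_of_le_of_ne (Ideal.comap_mono h2.le) fun he => h2.ne ?_
        exact PrimeSpectrum.ext
          (Ideal.comap_injective_of_surjective _ Ideal.Quotient.mk_surjective he)
      have h3 := Ideal.height_add_one_le_of_lt_of_isPrime h1
      calc I.height + (((i.succ : Fin (l.length + 1)) : ℕ) : ℕ∞)
          = I.height + ((i.castSucc : ℕ) : ℕ∞) + 1 := by
            rw [Fin.val_succ, Fin.val_castSucc]; push_cast; ring
        _ ≤ ((l i.castSucc).asIdeal.comap (Ideal.Quotient.mk I)).height + 1 := by gcongr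
        _ ≤ _ := h3
  have h1 := key (Fin.last _)
  have h2 : (l (Fin.last _)).asIdeal.comap (Ideal.Quotient.mk I) = n := by
    have h3 : l (Fin.last _) = l.last := rfl
    rw [h3, hl]
    change (n.map (Ideal.Quotient.mk I)).comap (Ideal.Quotient.mk I) = n
    rw [Ideal.comap_map_of_surjective _ Ideal.Quotient.mk_surjective, ← RingHom.ker_eq_comap_bot,
      Ideal.mk_ker]
    exact sup_eq_left.mpr hIn
  rw [h2] at h1
  exact h1

end Vale.Agent.P178.All
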