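import Vale.Agent.P178.All.Chain

/-!
A finite birational domain over a quotient of `A` in which a given finite local complete
intersection `R` is a principal prime divisor.
-/

namespace Vale.Agent.P178.All

open Ideal IsLocalRing Vale.Agent.P178

universe u

/-- Simultaneous choice of elements of `I` modulo the products `n i * I`. -/
theorem crt_select_mul {S : Type*} [CommRing S] {ι : Type*} [Finite ι] (n : ι → Ideal S)
    (hn : ∀ i, (n i).IsMaximal) (hne : ∀ i j, i ≠ j → n i ≠ n j) (I : Ideal S)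
    (g : ι → S) (hg : ∀ i, g i ∈ I) :
    ∃ G ∈ I, ∀ i, G - g i ∈ n i * I := by
  classical
  have := Fintype.ofFinite ι
  have hcop : Pairwise (Function.onFun IsCoprime n) := fun i j hij =>
    Ideal.isCoprime_iff_sup_eq.mpr ((hn i).coprime_of_ne (hn j) (hne i j hij))
  have he : ∀ i, ∃ e : S, ∀ j, e - (if j = i then 1 else 0) ∈ n j := fun i =>
    Ideal.exists_forall_sub_mem_ideal hcop (fun j => if j = i then 1 else 0)
  choose e he using he
  refine ⟨∑ i, e i * g i, I.sum_mem fun i _ => I.mul_mem_left _ (hg i), ?_⟩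
  intro i
  have h1 : ∑ j, e j * g j - g i = ∑ j, (e j - (if i = j then 1 else 0)) * g j := by
    simp [sub_mul, Finset.sum_sub_distrib]
  rw [h1]
  refine Ideal.sum_mem _ fun j _ => ?_
  exact Ideal.mul_mem_mul (he j i) (hg j)

/-- Nakayama at a prime, in terms of elements. -/
theorem nakayama_at {T : Type*} [CommRing T] [IsNoetherianRing T] (n : Ideal T) [n.IsPrime]
    (I K : Ideal T) (h : ∀ x ∈ I, ∃ s, s ∉ n ∧ s * x ∈ K ⊔ n * I) :
    ∀ x ∈ I, ∃ s, s ∉ n ∧ s * x ∈ K := by
  let B := Localization.AtPrime n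
  have h0 : n.map (algebraMap T B) = maximalIdeal B := Localization.AtPrime.map_eq_maximalIdeal
  have h1 : I.map (algebraMap T B) ≤ K.map (algebraMap T B) ⊔
      maximalIdeal B • I.map (algebraMap T B) := by
    rw [Ideal.map_le_iff_le_comap]
    intro x hx
    obtain ⟨s, hs, hsx⟩ := h x hx
    rw [Ideal.mem_comap]
    have h3 := Ideal.mem_map_of_mem (algebraMap T B) hsx
    rw [Ideal.map_sup, Ideal.map_mul, h0, map_mul] at h3
    have hu : IsUnit (algebraMap T B s) := IsLocalization.map_units B (⟨s, hs⟩ : n.primeCompl)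
    exact (Ideal.unit_mul_mem_iff_mem _ hu).mp h3
  have h2 : I.map (algebraMap T B) ≤ K.map (algebraMap T B) :=
    Submodule.le_of_le_smul_of_le_jacobson_bot (I.map (algebraMap T B)).fg_of_isNoetherianRing
      (IsLocalRing.jacobson_eq_maximalIdeal _ bot_ne_top).ge h1
  intro x hx
  have h3 := h2 (Ideal.mem_map_of_mem (algebraMap T B) hx)
  rw [IsLocalization.algebraMap_mem_map_algebraMap_iff n.primeCompl] at h3
  obtain ⟨s, hs, hsx⟩ := h3
  exact ⟨s, hs, hsx⟩

theorem exists_lci_cover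
    (A : Type u) [CommRing A] [IsLocalRing A] [IsNoetherianRing A]
    (R : Type u) [CommRing R] [IsDomain R] [Algebra A R] [Module.Finite A R]
    (P : Ideal A) [hPp : P.IsPrime] (hPR : RingHom.ker (algebraMap A R) = P)
    (hPm : P ≠ maximalIdeal A)
    (hbir : ∀ c : R, ∃ s a : A, algebraMap A R s ≠ 0 ∧
      algebraMap A R s * c = algebraMap A R a)
    (t : ℕ) (hht : P.height = (t + 2 : ℕ))
    (m : ℕ) (φ : MvPolynomial (Fin m) A →ₐ[A] R) (hφ : Function.Surjective φ)
    (hlci : ∀ n : Ideal (MvPolynomial (Fin m) A), n.IsMaximal → RingHom.ker φ ≤ n →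
      ∃ g : Fin (m + (t + 1) + 1) → MvPolynomial (Fin m) A, (∀ i, g i ∈ RingHom.ker φ) ∧
        ∀ x ∈ RingHom.ker φ, ∃ s, s ∉ n ∧ s * x ∈ span (Set.range g)) :
    ∃ (E : Type u) (_ : CommRing E) (_ : Algebra A E) (_ : Module.Finite A E) (_ : IsDomain E)
      (ψ : E →ₐ[A] R) (g : E),
      Function.Surjective ψ ∧ Prime g ∧ RingHom.ker ψ = Ideal.span {g} ∧
      (∀ M : Ideal E, M.IsMaximal → RingHom.ker ψ ≤ M) ∧
      (∀ e : E, ∃ s a : A, algebraMap A R s ≠ 0 ∧
        algebraMap A E s * e = algebraMap A E a) ∧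
      (RingHom.ker (algebraMap A E)).height = (t + 1 : ℕ) := by
  classical
  have hRnoeth : IsNoetherianRing R := IsNoetherianRing.of_finite A R
  let T := MvPolynomial (Fin m) A
  let y : Fin m → R := fun j => φ (MvPolynomial.X j)
  have hφX : ∀ j, φ (MvPolynomial.X j) = y j := fun j => rfl
  have hφC : ∀ a, φ (MvPolynomial.C a) = algebraMap A R a := fun a => φ.commutes a
  let I : Ideal T := RingHom.ker φ
  have hIp : I.IsPrime := RingHom.ker_isPrime _
  have hPmem : ∀ a : A, algebraMap A R a = 0 ↔ a ∈ P := by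
    intro a; rw [← hPR]; rfl
  have hIP : P = I.comap (MvPolynomial.C : A →+* T) := by
    ext a
    rw [← hPmem]
    change _ ↔ φ (MvPolynomial.C a) = 0
    rw [hφC]
  have hPmax : ¬ P.IsMaximal := fun h => hPm (IsLocalRing.eq_maximalIdeal h)
  -- integrality of quotients
  have hint : ∀ (q : Ideal T), I ≤ q → ∀ f : T, IsIntegral A (Ideal.Quotient.mk q f) := by
    intro q hq f
    obtain ⟨p, hp, hpe⟩ := (Algebra.IsIntegral.isIntegral (R := A) (φ f))
    refine ⟨p, hp, ?_⟩
    have h1 : Polynomial.aeval f p ∈ I := by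
      change φ (Polynomial.aeval f p) = 0
      rw [← Polynomial.aeval_algHom_apply]
      exact hpe
    have h2 : Ideal.Quotient.mk q (Polynomial.aeval f p) = 0 :=
      Ideal.Quotient.eq_zero_iff_mem.mpr (hq h1)
    rw [← h2, Polynomial.eval₂_eq_sum_range, Polynomial.aeval_eq_sum_range, map_sum]
    refine Finset.sum_congr rfl fun i _ => ?_
    rw [Algebra.smul_def, map_mul, map_pow]
    rfl
  -- maximal ideals
  let ι := MaximalSpectrum R
  have hιfin : Finite ι := by
    have h1 : ((maximalIdeal A).primesOver R).Finite := Algebra.QuasiFinite.finite_primesOver _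
    have h2 : Set.range (fun M : MaximalSpectrum R => M.asIdeal) ⊆ (maximalIdeal A).primesOver R := by
      rintro _ ⟨M, rfl⟩
      have hM := M.isMaximal
      refine ⟨hM.isPrime, ⟨?_⟩⟩
      have : (M.asIdeal.comap (algebraMap A R)).IsMaximal :=
        Ideal.isMaximal_comap_of_isIntegral_of_isMaximal M.asIdeal
      exact (IsLocalRing.eq_maximalIdeal this).symm
    have h3 := h1.subset h2
    rw [Set.finite_range_iff] at h3
    · exact h3
    · intro M M' h
      exact MaximalSpectrum.ext h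
  have := Fintype.ofFinite ι
  let n : ι → Ideal T := fun M => M.asIdeal.comap φ
  have hn : ∀ i, (n i).IsMaximal := fun i => by
    have := i.isMaximal
    exact Ideal.comap_isMaximal_of_surjective φ hφ
  have hne : ∀ i j, i ≠ j → n i ≠ n j := by
    intro i j hij h
    apply hij
    exact MaximalSpectrum.ext (Ideal.comap_injective_of_surjective φ hφ h)
  have hIn : ∀ i, I ≤ n i := fun i x hx => by
    change φ x ∈ i.asIdeal
    rw [RingHom.mem_ker.mp hx]; exact i.asIdeal.zero_mem
  have hcomapφ : ∀ (Q : Ideal R), (Q.comap φ).comap (algebraMap A T) = Q.comap (algebraMap A R) := by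
    intro Q
    ext a
    change φ (MvPolynomial.C a) ∈ Q ↔ _
    rw [hφC]; rfl
  have hnA : ∀ i, (n i).comap (algebraMap A T) = maximalIdeal A := by
    intro i
    have hM := i.isMaximal
    have : (i.asIdeal.comap (algebraMap A R)).IsMaximal :=
      Ideal.isMaximal_comap_of_isIntegral_of_isMaximal i.asIdeal
    rw [hcomapφ]
    exact IsLocalRing.eq_maximalIdeal this
  have hnex : ∀ q : Ideal T, q.IsMaximal → I ≤ q → ∃ i, n i = q := by
    intro q hqm hIq
    have h1 : (q.map φ).comap φ = q := by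
      rw [Ideal.comap_map_of_surjective φ hφ]
      exact sup_eq_left.mpr hIq
    have h2 : (q.map φ).IsMaximal := Ideal.IsMaximal.map_of_surjective_of_ker_le hφ hIq
    exact ⟨⟨q.map φ, h2⟩, h1⟩
  -- local generators
  choose g₀ hg₀I hg₀ using fun i => hlci (n i) (hn i) (hIn i)
  choose G hGI hG using fun k => crt_select_mul n hn hne I (fun i => g₀ i k) (fun i => hg₀I i k)
  have hgen : ∀ H : Fin (m + (t + 1) + 1) → T, (∀ i k, H k - G k ∈ n i * I) → ∀ i,
      ∀ x ∈ I, ∃ s, s ∉ n i ∧ s * x ∈ span (Set.range H) := by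
    intro H hH i
    have := (hn i).isPrime
    apply nakayama_at (n i) I (span (Set.range H))
    intro x hx
    obtain ⟨s, hs, hsx⟩ := hg₀ i x hx
    refine ⟨s, hs, ?_⟩
    have hle : span (Set.range (g₀ i)) ≤ span (Set.range H) ⊔ n i * I := by
      rw [Ideal.span_le]
      rintro _ ⟨k, rfl⟩
      have h1 : g₀ i k = H k - ((H k - G k) + (G k - g₀ i k)) := by ring
      simp only [SetLike.mem_coe]
      rw [h1]
      refine Ideal.sub_mem _ (Submodule.mem_sup_left (Ideal.subset_span ⟨k, rfl⟩))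
        (Submodule.mem_sup_right ?_)
      exact Ideal.add_mem _ (hH i k) (hG k i)
    exact hle hsx
  -- an element of the maximal ideal outside `P`
  obtain ⟨a₀, ha₀, ha₀P⟩ : ∃ a₀ ∈ maximalIdeal A, a₀ ∉ P := by
    by_contra hcon
    push Not at hcon
    apply hPmax
    have h1 : maximalIdeal A ≤ P := hcon
    rw [← (maximalIdeal.isMaximal A).eq_of_le hPp.ne_top h1]
    exact maximalIdeal.isMaximal A
  let ρ : T := MvPolynomial.C a₀
  have hρn : ∀ i, ρ ∈ n i := by
    intro i
    have : a₀ ∈ (n i).comap (algebraMap A T) := by rw [hnA i]; exact ha₀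
    exact this
  have hρI : ρ ∉ I := by
    intro h
    apply ha₀P
    rw [hIP]; exact h
  -- linear elements
  choose s a hs hsa using fun j => hbir (y j)
  have hsP : ∀ j, s j ∉ P := fun j h => hs j ((hPmem _).2 h)
  let ε : Fin m → T := fun j => MvPolynomial.C (s j) * MvPolynomial.X j - MvPolynomial.C (a j)
  have hε : ∀ j, ε j ∈ I := by
    intro j
    change φ (MvPolynomial.C (s j) * MvPolynomial.X j - MvPolynomial.C (a j)) = 0
    rw [map_sub, map_mul, hφC, hφC, hφX, hsa, sub_self]
  let G' : Fin m → T := fun j => G ⟨j.1, by omega⟩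
  have hG'I : ∀ j, G' j ∈ I := fun j => hGI _
  obtain ⟨lam, hlam⟩ := exists_lambda_unramified I P hIP hPmax s a hsP hε G'
    (fun j => hG'I j) ρ hρI
  -- monic polynomials
  choose p hp hpe using fun j => (Algebra.IsIntegral.isIntegral (R := A) (y j))
  have hpdeg : ∀ j, 0 < (p j).natDegree := by
    intro j
    rw [Nat.pos_iff_ne_zero]
    intro h
    have h1 : p j = 1 := (hp j).natDegree_eq_zero.mp h
    have h2 := hpe j
    rw [h1, Polynomial.eval₂_one] at h2
    exact one_ne_zero h2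
  let base : Fin m → T := fun j => G' j + MvPolynomial.C lam * ρ * ε j
  let N : Fin m → ℕ := fun j => 2 + (base j).totalDegree
  let pN : Fin m → Polynomial A := fun j => p j ^ N j
  have hpN : ∀ j, (pN j).Monic := fun j => (hp j).pow _
  have hpNdeg : ∀ j, (base j).totalDegree < (pN j).natDegree := by
    intro j
    have h1 : (pN j).natDegree = N j * (p j).natDegree := (hp j).natDegree_pow _
    rw [h1]
    have h2 := hpdeg j
    calc (base j).totalDegree < N j * 1 := by simp only [N]; omega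
      _ ≤ N j * (p j).natDegree := Nat.mul_le_mul_left _ h2
  let h : Fin m → T := fun j => Polynomial.aeval (MvPolynomial.X j : T) (pN j)
  have hpI : ∀ j, Polynomial.aeval (MvPolynomial.X j : T) (p j) ∈ I := by
    intro j
    change φ (Polynomial.aeval (MvPolynomial.X j : T) (p j)) = 0
    rw [← Polynomial.aeval_algHom_apply, hφX]
    exact hpe j
  have hh : ∀ j, h j ∈ I ^ 2 := by
    intro j
    have h1 : h j = Polynomial.aeval (MvPolynomial.X j : T) (p j) ^ N j := map_pow _ _ _
    rw [h1]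
    exact Ideal.pow_le_pow_right (by simp only [N]; omega) (Ideal.pow_mem_pow (hpI j) (N j))
  let F : Fin m → T := fun j => base j + h j
  have hFI : ∀ j, F j ∈ I := fun j => Ideal.add_mem _
    (Ideal.add_mem _ (hG'I j) (Ideal.mul_mem_left _ _ (hε j)))
    (Ideal.pow_le_self two_ne_zero (hh j))
  have hFn : ∀ i j, F j - G' j ∈ n i * I := by
    intro i j
    have h1 : F j - G' j = MvPolynomial.C lam * ρ * ε j + h j := by
      simp only [F, base]; ring
    rw [h1]
    refine Ideal.add_mem _ (Ideal.mul_mem_mul (Ideal.mul_mem_left _ _ (hρn i)) (hε j)) ?_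
    have h2 := hh j
    rw [pow_two] at h2
    exact Ideal.mul_mono_left (hIn i) h2
  let l : Fin m → T := fun j => MvPolynomial.X j ^ (pN j).natDegree - F j
  have hAnt : Nontrivial A := inferInstance
  have hl : ∀ j, (l j).totalDegree < (pN j).natDegree := by
    intro j
    have hD : 0 < (pN j).natDegree := lt_of_le_of_lt (Nat.zero_le _) (hpNdeg j)
    have h1 : l j = - ((h j - MvPolynomial.X j ^ (pN j).natDegree) + base j) := by
      simp only [l, F]; ring
    rw [h1, MvPolynomial.totalDegree_neg]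
    refine lt_of_le_of_lt (MvPolynomial.totalDegree_add _ _) (max_lt ?_ (hpNdeg j))
    exact totalDegree_aeval_monic_sub j (pN j) (hpN j) hD
  have hfinK : ∀ K : Ideal T, span (Set.range F) ≤ K → Module.Finite A (T ⧸ K) := by
    intro K hK
    refine finite_quotient_of_monic_like m K (fun j => (pN j).natDegree) l hl (fun j => ?_)
    have h1 : MvPolynomial.X j ^ (pN j).natDegree - l j = F j := by
      simp only [l]; ring
    rw [h1]
    exact hK (Ideal.subset_span ⟨j, rfl⟩)
  -- the set of primes to be avoided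
  let K₀ : Ideal T := span (Set.range F)
  let Q : Set (Ideal T) := {q | q.IsPrime ∧ K₀ ≤ q ∧
    (q.comap (algebraMap A T) = maximalIdeal A ∨ q.comap (algebraMap A T) = P) ∧ ¬ I ≤ q}
  have hQfin : Q.Finite := by
    refine ((finite_primes_over K₀ (hfinK K₀ le_rfl) (maximalIdeal A)).union
      (finite_primes_over K₀ (hfinK K₀ le_rfl) P)).subset ?_
    rintro q ⟨h1, h2, h3, -⟩
    rcases h3 with h3 | h3
    · exact Or.inl ⟨h1, h2, h3⟩
    · exact Or.inr ⟨h1, h2, h3⟩
  let J : Ideal T := (Finset.univ.inf n) * I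
  have hJn : ∀ i, J ≤ n i * I := fun i =>
    Ideal.mul_mono_left (Finset.inf_le (Finset.mem_univ i))
  have hJI : J ≤ I := Ideal.mul_le_right
  have hJQ : ∀ q ∈ Q, ¬ J ≤ q := by
    rintro q ⟨hqp, -, -, hIq⟩ hJq
    rcases hqp.mul_le.mp hJq with h1 | h1
    · obtain ⟨i, -, hi⟩ := hqp.inf_le'.mp h1
      exact hIq ((hIn i).trans hi)
    · exact hIq h1
  let k₀ : Fin (m + (t + 1) + 1) := ⟨m, by omega⟩
  obtain ⟨j₀, hj₀J, hj₀⟩ := coset_avoidance Q hQfin (fun q hq => hq.1) J hJQ (G k₀)
  let H : Fin (m + (t + 1) + 1) → T := fun k =>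
    if hk : k.1 < m then F ⟨k.1, hk⟩ else if k = k₀ then G k + j₀ else G k
  have hHF : ∀ j : Fin m, H ⟨j.1, by omega⟩ = F j := by
    intro j
    simp only [H, j.2, dif_pos]
  have hHk₀ : H k₀ = G k₀ + j₀ := by
    simp [H, k₀]
  have hHI : ∀ k, H k ∈ I := by
    intro k
    by_cases hk : k.1 < m
    · simp only [H, hk, dif_pos]; exact hFI _
    · by_cases hk' : k = k₀
      · rw [hk', hHk₀]; exact Ideal.add_mem _ (hGI _) (hJI hj₀J)
      · simp only [H, hk, dif_neg, not_false_iff, hk', if_neg]; exact hGI _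
  have hHG : ∀ i k, H k - G k ∈ n i * I := by
    intro i k
    by_cases hk : k.1 < m
    · have h1 : H k = F ⟨k.1, hk⟩ := by simp only [H, hk, dif_pos]
      rw [h1]
      exact hFn i ⟨k.1, hk⟩
    · by_cases hk' : k = k₀
      · rw [hk', hHk₀, add_sub_cancel_left]; exact hJn i hj₀J
      · simp only [H, hk, dif_neg, not_false_iff, hk', if_neg, sub_self]
        exact Ideal.zero_mem _
  have hlocH := hgen H hHG
  -- the prime `𝔮`
  have hιne : Nonempty ι := by
    obtain ⟨M, hM⟩ := Ideal.exists_maximal R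
    exact ⟨⟨M, hM⟩⟩
  obtain ⟨i₀⟩ := hιne
  have hminI : I ∈ (span (Set.range H)).minimalPrimes := by
    refine ⟨⟨hIp, ?_⟩, ?_⟩
    · rw [Ideal.span_le]; rintro _ ⟨k, rfl⟩; exact hHI k
    · rintro q ⟨hq, hqle⟩ hqI x hx
      obtain ⟨s, hs, hsx⟩ := hlocH i₀ x hx
      have h1 := hqle hsx
      exact (hq.mem_or_mem h1).resolve_left fun h2 => hs (hIn i₀ (hqI h2))
  have hIht : I.height = ((m + (t + 1) + 1 : ℕ) : ℕ∞) := by
    rw [height_mvPolynomial_of_integral m I (hint I le_rfl)]
    have h1 : I.comap (algebraMap A T) = P := hIP.symm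
    rw [h1, hht, ← Nat.cast_add]
    congr 1
    omega
  obtain ⟨𝔮, h𝔮p, h𝔮I, h𝔮ne, h𝔮x, h𝔮ht⟩ :=
    exists_prime_of_gens I (m + (t + 1)) H hHI hminI hIht.ge
  have hK₀𝔮 : K₀ ≤ 𝔮 := by
    rw [Ideal.span_le]
    rintro _ ⟨j, rfl⟩
    have h1 := h𝔮x ⟨j.1, by omega⟩
    have h2 : (⟨j.1, by omega⟩ : Fin (m + (t + 1))).castSucc = ⟨j.1, by omega⟩ := rfl
    rw [h2, hHF] at h1
    exact h1
  have hk₀𝔮 : G k₀ + j₀ ∈ 𝔮 := by
    have h1 := h𝔮x ⟨m, by omega⟩
    have h2 : (⟨m, by omega⟩ : Fin (m + (t + 1))).castSucc = k₀ := rfl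
    rw [h2, hHk₀] at h1
    exact h1
  have havoid : ∀ q : Ideal T, q.IsPrime → 𝔮 ≤ q →
      (q.comap (algebraMap A T) = maximalIdeal A ∨ q.comap (algebraMap A T) = P) → I ≤ q := by
    intro q hqp hHq hqA
    by_contra hIq
    exact hj₀ q ⟨hqp, hK₀𝔮.trans hHq, hqA, hIq⟩ (hHq hk₀𝔮)
  -- the ring `E`
  let E := T ⧸ 𝔮
  have hfin : Module.Finite A E := hfinK 𝔮 hK₀𝔮
  have hdom : IsDomain E := inferInstance
  let mk : T →ₐ[A] E := Ideal.Quotient.mkₐ A 𝔮
  have hmk : Function.Surjective mk := Ideal.Quotient.mk_surjective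
  let ψ : E →ₐ[A] R := Ideal.Quotient.liftₐ 𝔮 φ (fun a ha => h𝔮I ha)
  have hψmk : ∀ x, ψ (mk x) = φ x := fun x => rfl
  have hψ : Function.Surjective ψ := by
    intro c
    obtain ⟨x, rfl⟩ := hφ c
    exact ⟨mk x, rfl⟩
  have hmk0 : ∀ x, mk x = 0 ↔ x ∈ 𝔮 := fun x => Ideal.Quotient.eq_zero_iff_mem
  have h𝔮le : ∀ q : Ideal E, 𝔮 ≤ q.comap mk := by
    intro q x hx
    rw [Ideal.mem_comap, (hmk0 x).2 hx]
    exact q.zero_mem
  have hcomapA : ∀ q : Ideal E, (q.comap mk).comap (algebraMap A T) = q.comap (algebraMap A E) := by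
    intro q; rfl
  have hmaxover : ∀ M : Ideal E, M.IsMaximal → M.comap (algebraMap A E) = maximalIdeal A := by
    intro M hM
    have : (M.comap (algebraMap A E)).IsMaximal :=
      Ideal.isMaximal_comap_of_isIntegral_of_isMaximal M
    exact IsLocalRing.eq_maximalIdeal this
  have hkerM : ∀ M : Ideal E, M.IsMaximal → I ≤ M.comap mk := by
    intro M hM
    have hMp : M.IsPrime := hM.isPrime
    refine havoid (M.comap mk) (Ideal.comap_isPrime _ _) (h𝔮le M) (Or.inl ?_)
    rw [hcomapA]
    exact hmaxover M hM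
  have hker : ∀ M : Ideal E, M.IsMaximal → RingHom.ker ψ ≤ M := by
    intro M hM x hx
    obtain ⟨y, rfl⟩ := hmk x
    exact hkerM M hM hx
  have hkerp : (RingHom.ker ψ).IsPrime := RingHom.ker_isPrime _
  let g : E := mk (H (Fin.last _))
  have hgker : g ∈ RingHom.ker ψ := by
    change φ (H (Fin.last _)) = 0
    exact hHI _
  have hkerg : RingHom.ker ψ = Ideal.span {g} := by
    refine le_antisymm ?_ (by rwa [Ideal.span_singleton_le_iff_mem])
    intro x hx
    apply Ideal.mem_of_localization_maximal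
    intro M hM
    have hMp : M.IsPrime := hM.isPrime
    rw [IsLocalization.algebraMap_mem_map_algebraMap_iff M.primeCompl]
    obtain ⟨y, rfl⟩ := hmk x
    have hq : (M.comap mk).IsMaximal := Ideal.comap_isMaximal_of_surjective mk hmk
    obtain ⟨i, hi⟩ := hnex (M.comap mk) hq (hkerM M hM)
    obtain ⟨s, hs, hsx⟩ := hlocH i y hx
    refine ⟨mk s, ?_, ?_⟩
    · intro h1
      apply hs
      rw [hi]
      exact h1
    · have h1 := Ideal.mem_map_of_mem (mk : T →+* E) hsx
      rw [Ideal.map_span] at h1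
      have h2 : span ((mk : T →+* E) '' Set.range H) ≤ span {g} := by
        rw [Ideal.span_le]
        rintro _ ⟨_, ⟨k, rfl⟩, rfl⟩
        rcases Fin.eq_castSucc_or_eq_last k with ⟨j, rfl⟩ | rfl
        · have h3 : (mk : T →+* E) (H j.castSucc) = 0 := (hmk0 _).2 (h𝔮x j)
          rw [h3]
          exact zero_mem _
        · exact Ideal.mem_span_singleton_self g
      have h3 := h2 h1
      have h4 : (mk : T →+* E) (s * y) = mk s * mk y := map_mul mk s y
      rw [h4] at h3
      exact h3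
  have hg0 : g ≠ 0 := by
    intro h0
    apply h𝔮ne
    refine le_antisymm h𝔮I fun x hx => ?_
    have h1 : mk x ∈ RingHom.ker ψ := hx
    rw [hkerg, h0, Ideal.mem_span_singleton] at h1
    exact (hmk0 x).1 (zero_dvd_iff.1 h1)
  have hgp : Prime g := by
    rw [hkerg] at hkerp
    exact (Ideal.span_singleton_prime hg0).1 hkerp
  have hkerP : (RingHom.ker ψ).comap (algebraMap A E) = P := by
    rw [← hPR]
    ext x
    rw [Ideal.mem_comap, RingHom.mem_ker, RingHom.mem_ker, AlgHom.commutes]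
  refine ⟨E, inferInstance, inferInstance, hfin, hdom, ψ, g, hψ, hgp, hkerg, hker, ?_, ?_⟩
  · -- birationality
    have hden := exists_denominator_of_unique_prime P (RingHom.ker ψ) ?_ ?_ ?_
    · intro e
      obtain ⟨s, a, hs, hsa⟩ := hden e
      exact ⟨s, a, fun h => hs ((hPmem s).1 h), hsa⟩
    · intro q hq hqP
      have h1 : I ≤ q.comap mk :=
        havoid (q.comap mk) (Ideal.comap_isPrime _ _) (h𝔮le q) (Or.inr hqP)
      have h2 : RingHom.ker ψ ≤ q := by
        intro x hx
        obtain ⟨y, rfl⟩ := hmk x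
        exact h1 hx
      exact (eq_of_le_of_comap_eq (A := A) h2 (hkerP.trans hqP.symm)).symm
    · intro x
      obtain ⟨s, a, hs, hsa⟩ := hbir (ψ x)
      refine ⟨s, a, fun h => hs ((hPmem s).2 h), ?_⟩
      rw [RingHom.mem_ker, map_sub, map_mul, AlgHom.commutes, AlgHom.commutes, hsa, sub_self]
    · obtain ⟨v, hv, hvz⟩ := hlam h hh
      refine ⟨mk v, hv, ?_⟩
      intro z hz
      obtain ⟨z, rfl⟩ := hmk z
      have h1 := Ideal.mem_map_of_mem (mk : T →+* E) (hvz z hz)
      rw [Ideal.map_sup, Ideal.map_map, map_mul] at h1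
      have h2 : (span (Set.range F)).map (mk : T →+* E) = ⊥ := by
        rw [Ideal.map_eq_bot_iff_le_ker]
        intro x hx
        exact (hmk0 x).2 (hK₀𝔮 hx)
      have h3 : (span (Set.range F)) = span (Set.range fun j => G' j +
          MvPolynomial.C lam * ρ * (MvPolynomial.C (s j) * MvPolynomial.X j -
            MvPolynomial.C (a j)) + h j) := rfl
      rw [← h3, h2, sup_bot_eq] at h1
      exact h1
  · -- the height
    have h1 := height_mvPolynomial_of_integral m 𝔮
      (fun f => Algebra.IsIntegral.isIntegral (R := A) (A := T ⧸ 𝔮) (Ideal.Quotient.mk 𝔮 f))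
    have h2 : 𝔮.comap (algebraMap A T) = RingHom.ker (algebraMap A E) := by
      ext a
      change algebraMap A T a ∈ 𝔮 ↔ Ideal.Quotient.mk 𝔮 (algebraMap A T a) = 0
      rw [Ideal.Quotient.eq_zero_iff_mem]
    rw [h2] at h1
    have h3 : 𝔮.height + 1 ≤ I.height :=
      Ideal.height_add_one_le_of_lt_of_isPrime (lt_of_le_of_ne h𝔮I h𝔮ne)
    rw [hIht] at h3
    have h4 : 𝔮.height = ((m + (t + 1) : ℕ) : ℕ∞) := by
      refine le_antisymm ?_ h𝔮ht
      have h5 : 𝔮.height + 1 ≤ ((m + (t + 1) : ℕ) : ℕ∞) + 1 := by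
        refine h3.trans (le_of_eq ?_)
        push_cast
        ring
      exact (ENat.add_le_add_iff_right ENat.one_ne_top).1 h5
    rw [h4] at h1
    have h6 : (RingHom.ker (algebraMap A E)).height ≠ ⊤ := by
      intro h
      rw [h] at h1
      simp at h1
    obtain ⟨k, hk⟩ := ENat.ne_top_iff_exists.mp h6
    rw [← hk] at h1 ⊢
    have h7 : m + (t + 1) = k + m := by exact_mod_cast h1
    have h8 : k = t + 1 := by omega
    rw [h8]

end Vale.Agent.P178.All
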