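import Vale.Agent.P178.Residues

/-!
The statements of exactness at the last terms, and finite local complete intersections over a
regular local ring.
-/

namespace Vale.Agent.P178.Gersten

open IsLocalRing

universe u

/-- The algebra `R` over the (regular) ring `A` is a quotient of a polynomial ring in `m`
variables over `A` by an ideal which at every maximal ideal containing it is generated by
`m + c` elements. -/
def IsLci (A R : Type u) [CommRing A] [CommRing R] [Algebra A R] (c : ℕ) : Prop :=
  ∃ (m : ℕ) (φ : MvPolynomial (Fin m) A →ₐ[A] R), Function.Surjective φ ∧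
    ∀ (n : Ideal (MvPolynomial (Fin m) A)) [n.IsMaximal], RingHom.ker φ ≤ n →
      ∃ g : Fin (m + c) → Localization.AtPrime n,
        (RingHom.ker φ).map (algebraMap (MvPolynomial (Fin m) A) (Localization.AtPrime n)) =
          Ideal.span (Set.range g)

/-- Exactness of the Gersten complexes at the last terms, where `m` is the height of the primes
of dimension one and `n + 1 = m`: the complex in degree `m + 2` at its last term, the complex
in degree `m + 1` at its last two terms, the complex in degree `m` at its last term. -/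
def TailExact (A : Type u) [CommRing A] [IsLocalRing A] (n m : ℕ) : Prop :=
  (∀ x : K₁ (closedPoint A), ∃ (P : Pt A m) (a b : K₁ P.P), bd₂ P.P (closedPoint A) a b = x) ∧
  (∃ (P : Pt A m) (t : K₁ P.P), bd₁ P.P (closedPoint A) t = 1) ∧
  (∀ u : (P : Pt A m) → K₁ P.P, {P | u P ≠ 1}.Finite →
    ∑ᶠ P : Pt A m, bd₁ P.P (closedPoint A) (u P) = 0 →
    u ∈ Subgroup.closure {w : (P : Pt A m) → K₁ P.P |
      ∃ (Q : Pt A n) (a b : K₁ Q.P), ∀ P : Pt A m, w P = bd₂ Q.P P.P a b}) ∧
  (∀ c : Pt A m → ℤ, {P | c P ≠ 0}.Finite →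
    c ∈ AddSubgroup.closure {w : Pt A m → ℤ |
      ∃ (Q : Pt A n) (a : K₁ Q.P), ∀ P : Pt A m, w P = bd₁ Q.P P.P a})

/-- The prime `P` of height `c + 2` is the exact divisor of an element `t` of the residue field
of a prime `Q` of height `c + 1`, and each unit of the ring `R` over the residue field of `P`
is the exact boundary of a symbol `{s, t}`. -/
def IsHit (A : Type u) [CommRing A] (c : ℕ) (P : Pt A (c + 2)) (R : Type u) [CommRing R]
    (j : R →+* kappa P.P) : Prop :=
  ∃ (Q : Pt A (c + 1)) (t : K₁ Q.P), bd₁ Q.P P.P t = 1 ∧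
    (∀ P' : Pt A (c + 2), P' ≠ P → bd₁ Q.P P'.P t = 0) ∧
    ∀ w : Rˣ, ∃ s : K₁ Q.P, bd₂ Q.P P.P s t = Units.map j w ∧
      ∀ P' : Pt A (c + 2), P' ≠ P → bd₂ Q.P P'.P s t = 1

end Vale.Agent.P178.Gersten
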