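import Vale.Agent.P178.All.Rel2

/-!
Exactness at the sum of the groups `K₂` of the curves.
-/

namespace Vale.Agent.P178.All

open IsLocalRing Vale.Agent.P178 Vale.Agent.P178.Gersten

universe u

noncomputable section

variable {A : Type u} [CommRing A] [IsRegularLocalRing A] {n : ℕ}

section un

variable {R : Type u} [CommRing R] (P : PrimeSpectrum A) [Algebra R (P178.kappa P)]

omit [IsRegularLocalRing A] in
theorem un_one : un P (1 : Rˣ) = 1 := map_one _

omit [IsRegularLocalRing A] in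
theorem un_mul (x y : Rˣ) : un P (x * y) = un P x * un P y := map_mul _ _ _

omit [IsRegularLocalRing A] in
theorem un_inv (x : Rˣ) : un P x⁻¹ = (un P x)⁻¹ := map_inv _ _

end un

open Classical in
theorem unit_mem' (hn : 1 ≤ n) (hdim : ringKrullDim A = n + 2) (P : Pt A (n + 1))
    [Module.Finite (A ⧸ P.P.asIdeal) (Nrm P.P)] (w w' : (A ⧸ P.P.asIdeal)ˣ) :
    (Pi.single P (sym (un P.P w) (un P.P w')) : (P : Pt A (n + 1)) → MilnorK₂ (P178.kappa P.P)) ∈
      bdG A n (n + 1) :=
  unit_mem hn hdim P (Units.map (algebraMap (A ⧸ P.P.asIdeal) (Nrm P.P)).toMonoidHom w)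
    (Units.map (algebraMap (A ⧸ P.P.asIdeal) (Nrm P.P)).toMonoidHom w')

/-- Data of the regular curve. -/
structure RegCurve (A : Type u) [CommRing A] [IsRegularLocalRing A] (n : ℕ) where
  P₀ : Pt A (n + 1)
  dvr : IsDiscreteValuationRing (A ⧸ P₀.P.asIdeal)
  t : A ⧸ P₀.P.asIdeal
  ht0 : t ≠ 0
  ht : maximalIdeal (A ⧸ P₀.P.asIdeal) = Ideal.span {t}
  ρ : A ⧸ P₀.P.asIdeal →+* P178.kappa (closedPoint A)
  hρ : ∀ a : A, ρ (Ideal.Quotient.mk _ a) = algebraMap A (P178.kappa (closedPoint A)) a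

theorem ker_algebraMap_closed :
    RingHom.ker (algebraMap A (P178.kappa (closedPoint A))) = maximalIdeal A := by
  ext a
  rw [RingHom.mem_ker, IsScalarTower.algebraMap_apply A (A ⧸ (closedPoint A).asIdeal)
    (P178.kappa (closedPoint A)), IsFractionRing.to_map_eq_zero_iff]
  exact Ideal.Quotient.eq_zero_iff_mem

theorem exists_regCurve (hdim : ringKrullDim A = n + 2) : Nonempty (RegCurve A n) := by
  obtain ⟨P₁, hP₁, hdvr⟩ := exists_regular_curve A (n + 1) (by rw [hdim]; push_cast; ring)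
  obtain ⟨t, ht⟩ := (IsPrincipalIdealRing.principal (maximalIdeal (A ⧸ P₁.asIdeal)))
  have ht' : maximalIdeal (A ⧸ P₁.asIdeal) = Ideal.span {t} := ht
  have htirr : Irreducible t := (IsDiscreteValuationRing.irreducible_iff_uniformizer t).2 ht'
  exact ⟨⟨⟨P₁, hP₁⟩, hdvr, t, htirr.ne_zero, ht',
    Ideal.Quotient.lift P₁.asIdeal (algebraMap A (P178.kappa (closedPoint A))) (fun a ha => by
      rw [← RingHom.mem_ker, ker_algebraMap_closed]
      exact le_maximalIdeal P₁.2.ne_top ha), fun a => rfl⟩⟩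

variable (C : RegCurve A n)

theorem RegCurve.surj : Function.Surjective C.ρ := by
  intro z
  obtain ⟨a, rfl⟩ := algebraMap_kappa_closedPoint_surjective (A := A) z
  exact ⟨Ideal.Quotient.mk _ a, C.hρ a⟩

theorem RegCurve.ker : RingHom.ker C.ρ = Ideal.span {C.t} := by
  have := C.dvr
  rw [← C.ht]
  exact IsLocalRing.eq_maximalIdeal (RingHom.ker_isMaximal_of_surjective C.ρ C.surj)

theorem RegCurve.prime : Prime C.t := by
  have := C.dvr
  rw [← Ideal.span_singleton_prime C.ht0, ← C.ht]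
  infer_instance

/-- The uniformizer as a unit of the residue field. -/
def RegCurve.τ : (P178.kappa C.P₀.P)ˣ := el _ C.t C.ht0

open Classical in
theorem tau_unit_mem (hn : 1 ≤ n) (hdim : ringKrullDim A = n + 2)
    [Module.Finite (A ⧸ C.P₀.P.asIdeal) (Nrm C.P₀.P)] (y a : (A ⧸ C.P₀.P.asIdeal)ˣ)
    (hy : (y : A ⧸ C.P₀.P.asIdeal) = 1 + C.t * a) :
    (Pi.single C.P₀ (sym C.τ (un C.P₀.P y)) :
      (P : Pt A (n + 1)) → MilnorK₂ (P178.kappa P.P)) ∈ bdG A n (n + 1) := by
  rw [sym_one_add C.τ (un C.P₀.P a) (un C.P₀.P y) (by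
    have h1 := congrArg (algebraMap (A ⧸ C.P₀.P.asIdeal) (P178.kappa C.P₀.P)) hy
    rw [map_add, map_mul, map_one] at h1
    exact h1), Pi.single_neg]
  apply neg_mem
  have h2 : -un C.P₀.P a = un C.P₀.P (-a) := by
    ext
    exact (map_neg (algebraMap (A ⧸ C.P₀.P.asIdeal) (P178.kappa C.P₀.P)) (a : A ⧸ C.P₀.P.asIdeal)).symm
  rw [h2]
  exact unit_mem' hn hdim C.P₀ (-a) y

open Classical in
/-- Symbols on the regular curve with trivial residue. -/
theorem tau_mem (hn : 1 ≤ n) (hdim : ringKrullDim A = n + 2)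
    [Module.Finite (A ⧸ C.P₀.P.asIdeal) (Nrm C.P₀.P)] (y : (A ⧸ C.P₀.P.asIdeal)ˣ)
    (hy : C.ρ y = 1) :
    (Pi.single C.P₀ (sym C.τ (un C.P₀.P y)) :
      (P : Pt A (n + 1)) → MilnorK₂ (P178.kappa P.P)) ∈ bdG A n (n + 1) := by
  have := C.dvr
  have h1 : (y : A ⧸ C.P₀.P.asIdeal) - 1 ∈ Ideal.span {C.t} := by
    rw [← C.ker, RingHom.mem_ker, map_sub, hy, map_one, sub_self]
  obtain ⟨a, ha⟩ := Ideal.mem_span_singleton'.1 h1
  have htm : C.t ∈ maximalIdeal (A ⧸ C.P₀.P.asIdeal) := by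
    rw [C.ht]; exact Ideal.mem_span_singleton_self _
  by_cases hau : IsUnit a
  · obtain ⟨a, rfl⟩ := hau
    exact tau_unit_mem C hn hdim y a (by rw [mul_comm, ha]; ring)
  · have hat : a ∈ maximalIdeal (A ⧸ C.P₀.P.asIdeal) := hau
    obtain ⟨s, hs⟩ : IsUnit (1 + C.t) := by
      by_contra h
      have h2 : 1 + C.t ∈ maximalIdeal (A ⧸ C.P₀.P.asIdeal) := h
      have h3 := sub_mem h2 htm
      rw [add_sub_cancel_right] at h3
      exact (maximalIdeal.isMaximal _).ne_top ((Ideal.eq_top_iff_one _).2 h3)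
    obtain ⟨b, hb⟩ : IsUnit (a - 1) := by
      by_contra h
      have h2 : a - 1 ∈ maximalIdeal (A ⧸ C.P₀.P.asIdeal) := h
      have h3 := sub_mem hat h2
      rw [sub_sub_cancel] at h3
      exact (maximalIdeal.isMaximal _).ne_top ((Ideal.eq_top_iff_one _).2 h3)
    have h4 : (s : A ⧸ C.P₀.P.asIdeal) * ((s⁻¹ * y : (A ⧸ C.P₀.P.asIdeal)ˣ) :
        A ⧸ C.P₀.P.asIdeal) = y := by
      rw [Units.val_mul, Units.mul_inv_cancel_left]
    have h5 : ((s⁻¹ * y : (A ⧸ C.P₀.P.asIdeal)ˣ) : A ⧸ C.P₀.P.asIdeal) =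
        1 + C.t * ((b * s⁻¹ : (A ⧸ C.P₀.P.asIdeal)ˣ) : A ⧸ C.P₀.P.asIdeal) := by
      apply s.isUnit.mul_left_cancel
      rw [h4, Units.val_mul, mul_add, mul_one, hb]
      have h6 : (s : A ⧸ C.P₀.P.asIdeal) * (C.t * ((a - 1) * ((s⁻¹ : (A ⧸ C.P₀.P.asIdeal)ˣ) :
          A ⧸ C.P₀.P.asIdeal))) = C.t * (a - 1) := by
        calc _ = C.t * (a - 1) * ((s : A ⧸ C.P₀.P.asIdeal) *
              ((s⁻¹ : (A ⧸ C.P₀.P.asIdeal)ˣ) : A ⧸ C.P₀.P.asIdeal)) := by ring
          _ = _ := by rw [Units.mul_inv, mul_one]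
      rw [h6, hs]
      linear_combination -ha
    have h7 : un C.P₀.P y = un C.P₀.P s * un C.P₀.P (s⁻¹ * y) := by
      rw [← map_mul, mul_inv_cancel_left]
    rw [h7, sym_mul_right, Pi.single_add]
    exact add_mem (tau_unit_mem C hn hdim s 1 (by rw [hs, Units.val_one, mul_one]))
      (tau_unit_mem C hn hdim (s⁻¹ * y) (b * s⁻¹) h5)

/-- The reduction of units. -/
def RegCurve.ρU : (A ⧸ C.P₀.P.asIdeal)ˣ →* (P178.kappa (closedPoint A))ˣ :=
  Units.map C.ρ.toMonoidHom

open Classical in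
/-- The elements which can be moved to the regular curve. -/
def good (P : Pt A (n + 1))
    (H : MilnorK₂ (P178.kappa P.P) →+ Additive (P178.kappa (closedPoint A))ˣ) :
    AddSubgroup (MilnorK₂ (P178.kappa P.P)) where
  carrier := {z | ∃ y : (A ⧸ C.P₀.P.asIdeal)ˣ, C.ρU y = (H z).toMul⁻¹ ∧
    (Pi.single P z - Pi.single C.P₀ (sym C.τ (un C.P₀.P y)) :
      (P : Pt A (n + 1)) → MilnorK₂ (P178.kappa P.P)) ∈ bdG A n (n + 1)}
  zero_mem' := by
    refine ⟨1, ?_, ?_⟩
    · rw [map_one, map_zero, toMul_zero, inv_one]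
    · rw [Pi.single_zero, un_one, sym_one_right, Pi.single_zero, sub_zero]
      exact zero_mem _
  add_mem' := by
    rintro z z' ⟨y, hy, h⟩ ⟨y', hy', h'⟩
    refine ⟨y * y', ?_, ?_⟩
    · rw [map_mul, hy, hy', map_add, toMul_add, mul_inv]
    · rw [un_mul, sym_mul_right, Pi.single_add, Pi.single_add, add_sub_add_comm]
      exact add_mem h h'
  neg_mem' := by
    rintro z ⟨y, hy, h⟩
    refine ⟨y⁻¹, ?_, ?_⟩
    · rw [map_inv, hy, map_neg, toMul_neg]
    · rw [un_inv, sym_inv_right, Pi.single_neg, Pi.single_neg, ← neg_sub']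
      exact neg_mem h

/-- Symbols of units have trivial residue. -/
theorem bdU_unit {P : PrimeSpectrum A} {R : Type u} [CommRing R] [Algebra A R]
    [Algebra.IsIntegral A R] [Algebra R (P178.kappa P)] [IsScalarTower A R (P178.kappa P)]
    (u v : Rˣ) : bdU P (un P u) (un P v) = 1 := by
  ext
  exact bd₂_eq_one P (closedPoint A) (fun q hq _ => notMem_of_isUnit u.isUnit q hq)
    (fun q hq _ => notMem_of_isUnit v.isUnit q hq)

open Classical in
theorem good_eq_top_of_eq (hn : 1 ≤ n) (hdim : ringKrullDim A = n + 2)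
    [Module.Finite (A ⧸ C.P₀.P.asIdeal) (Nrm C.P₀.P)]
    (H : MilnorK₂ (P178.kappa C.P₀.P) →+ Additive (P178.kappa (closedPoint A))ˣ)
    (hH : ∀ a b, H (sym a b) = Additive.ofMul (bdU C.P₀.P a b))
    (z : MilnorK₂ (P178.kappa C.P₀.P)) : z ∈ good C C.P₀ H := by
  have := C.dvr
  refine mem_of_sym_mem _ (fun x y => sym_mem_of_gens (R := A ⧸ C.P₀.P.asIdeal) ?_ _ ?_ ?_ x y) z
  · exact finite_maximalIdeals (A := A) _
  · intro u v
    refine ⟨1, ?_, ?_⟩
    · rw [hH, bdU_unit, map_one]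
      rfl
    · rw [un_one, sym_one_right, Pi.single_zero, sub_zero]
      exact unit_mem' hn hdim C.P₀ u v
  · intro p hp u
    refine ⟨u, ?_, ?_⟩
    · rw [hH, toMul_ofMul]
      have hpM : Ideal.span {p} = Ideal.span {C.t} := by
        have h1 : (Ideal.span {p}).IsPrime := (Ideal.span_singleton_prime hp.ne_zero).2 hp
        have h2 : (Ideal.span {p}).IsMaximal := h1.isMaximal (by
          rw [Ne, Ideal.span_singleton_eq_bot]; exact hp.ne_zero)
        rw [← C.ht]
        exact IsLocalRing.eq_maximalIdeal h2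
      have hmax : (Ideal.span {p}).IsMaximal := by
        rw [hpM, ← C.ht]; infer_instance
      have h3 := bd₂_left C.P₀.P (closedPoint A) hp
        (comap_eq_maximalIdeal (A := A) (Ideal.span {p})) C.ρ (fun a => C.hρ a)
        (C.ker.trans hpM.symm) (by
          intro y
          obtain ⟨r, rfl⟩ := C.surj y
          exact ⟨r, 1, by rw [map_one]; exact one_ne_zero, by rw [map_one, div_one]⟩)
        (b := (u : A ⧸ C.P₀.P.asIdeal)) (fun q hq _ => notMem_of_isUnit u.isUnit q hq)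
      rw [Algebra.norm_self, MonoidHom.id_apply] at h3
      have h4 : bdU C.P₀.P (el _ p hp.ne_zero) (un C.P₀.P u) = (C.ρU u)⁻¹ := by
        ext
        rw [Units.val_inv_eq_inv_val]
        exact h3
      have h5 : C.ρU u = (bdU C.P₀.P (el _ p hp.ne_zero) (un C.P₀.P u))⁻¹ := by
        rw [h4, inv_inv]
      exact h5
    · have h1 : Associated C.t p := by
        have h1 : (Ideal.span {p}).IsPrime := (Ideal.span_singleton_prime hp.ne_zero).2 hp
        have h2 : (Ideal.span {p}).IsMaximal := h1.isMaximal (by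
          rw [Ne, Ideal.span_singleton_eq_bot]; exact hp.ne_zero)
        rw [← Ideal.span_singleton_eq_span_singleton, ← C.ht]
        exact (IsLocalRing.eq_maximalIdeal h2).symm
      obtain ⟨w, rfl⟩ := h1
      have h6 : el (P178.kappa C.P₀.P) (C.t * w) hp.ne_zero = C.τ * un C.P₀.P w :=
        Units.ext (map_mul _ _ _)
      rw [← Pi.single_sub]
      have h7 : sym (el (P178.kappa C.P₀.P) (C.t * w) hp.ne_zero) (un C.P₀.P u) -
          sym C.τ (un C.P₀.P u) = sym (un C.P₀.P w) (un C.P₀.P u) := by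
        rw [h6, sym_mul_left, add_sub_cancel_left]
      rw [h7]
      exact unit_mem' hn hdim C.P₀ w u

open Classical in
theorem good_eq_top_of_ne (hn : 1 ≤ n) (hdim : ringKrullDim A = n + 2) (P : Pt A (n + 1))
    (hne : P ≠ C.P₀) [Module.Finite (A ⧸ P.P.asIdeal) (Nrm P.P)]
    (H : MilnorK₂ (P178.kappa P.P) →+ Additive (P178.kappa (closedPoint A))ˣ)
    (hH : ∀ a b, H (sym a b) = Additive.ofMul (bdU P.P a b))
    (z : MilnorK₂ (P178.kappa P.P)) : z ∈ good C P H := by
  have := C.dvr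
  have hcurve : IsCurve P.P := isCurve_of_height hdim ⟨P.P, P.height⟩
  have := hcurve.isPrincipalIdealRing
  have hfin := finite_nrm P.P
  have h1 : ∀ u v : (Nrm P.P)ˣ, sym (un P.P u) (un P.P v) ∈ good C P H := by
    intro u v
    refine ⟨1, ?_, ?_⟩
    · rw [hH, bdU_unit, map_one]
      rfl
    · rw [un_one, sym_one_right, Pi.single_zero, sub_zero]
      exact unit_mem hn hdim P u v
  refine mem_of_sym_mem _ (fun x y => sym_mem_of_gens (R := Nrm P.P) ?_ _ h1 ?_ x y) z
  · exact finite_maximalIdeals (A := A) _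
  · intro p hp u
    have hprime : (Ideal.span {p}).IsPrime := (Ideal.span_singleton_prime hp.ne_zero).2 hp
    have hmax : (Ideal.span {p}).IsMaximal := hprime.isMaximal (by
      rw [Ne, Ideal.span_singleton_eq_bot]; exact hp.ne_zero)
    let F := Nrm P.P ⧸ Ideal.span {p}
    let _ : Field F := Ideal.Quotient.field _
    have hkerF : RingHom.ker (algebraMap A F) = maximalIdeal A := by
      rw [← comap_eq_maximalIdeal (A := A) (Ideal.span {p})]
      ext a
      rw [RingHom.mem_ker, Ideal.mem_comap]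
      exact Ideal.Quotient.eq_zero_iff_mem
    let q : A ⧸ (closedPoint A).asIdeal →+* F :=
      Ideal.Quotient.lift (closedPoint A).asIdeal (algebraMap A F) (fun a ha => by
        rw [← RingHom.mem_ker, hkerF]
        exact ha)
    have hq : Function.Injective q := by
      rw [injective_iff_map_eq_zero]
      intro a ha
      obtain ⟨x, rfl⟩ := Ideal.Quotient.mk_surjective a
      rw [Ideal.Quotient.eq_zero_iff_mem]
      have h1 : x ∈ RingHom.ker (algebraMap A F) := ha
      rw [hkerF] at h1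
      exact h1
    let ι : P178.kappa (closedPoint A) →+* F := IsFractionRing.lift hq
    let _ : Algebra (P178.kappa (closedPoint A)) F := ι.toAlgebra
    have htower : IsScalarTower A (P178.kappa (closedPoint A)) F :=
      IsScalarTower.of_algebraMap_eq fun a =>
        (IsFractionRing.lift_algebraMap hq (Ideal.Quotient.mk _ a)).symm
    obtain ⟨w, y, hy, hmem⟩ := glue_mem hn hdim P C.P₀ hne C.ht0 C.ht p hp u
      (Ideal.Quotient.mkₐ A (Ideal.span {p})) (Ideal.Quotient.mkₐ_surjective A (Ideal.span {p}))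
      (Ideal.Quotient.mkₐ_ker A (Ideal.span {p})) hkerF C.ρ C.hρ
    have h3 := bd₂_left P.P (closedPoint A) hp
      (comap_eq_maximalIdeal (A := A) (Ideal.span {p})) (F := F)
      (Ideal.Quotient.mk (Ideal.span {p})) (fun a => by
        rw [← IsScalarTower.algebraMap_apply A (P178.kappa (closedPoint A)) F]
        rfl)
      Ideal.mk_ker (by
        intro y
        obtain ⟨r, rfl⟩ := Ideal.Quotient.mk_surjective y
        exact ⟨r, 1, by rw [map_one]; exact one_ne_zero, by rw [map_one, div_one]⟩)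
      (b := (u : Nrm P.P)) (fun q hq _ => notMem_of_isUnit u.isUnit q hq)
    have h4 : bdU P.P (el _ p hp.ne_zero) (un P.P u) = (C.ρU y)⁻¹ := by
      ext
      rw [Units.val_inv_eq_inv_val]
      refine h3.trans ?_
      congr 1
      exact hy.symm
    have h5 : sym (un P.P w * el _ p hp.ne_zero) (un P.P u) ∈ good C P H := by
      refine ⟨y, ?_, hmem⟩
      rw [hH, toMul_ofMul, bdU_mul_left hcurve, bdU_unit, one_mul, h4, inv_inv]
    rw [sym_mul_left] at h5
    exact (add_mem_cancel_left (h1 w u)).1 h5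

open Classical in
/-- Exactness at the sum of the groups `K₂` of the curves. -/
theorem k₂_exact (hn : 1 ≤ n) (hdim : ringKrullDim A = n + 2)
    (hN : ∀ P : HtPrime A (n + 1), Module.Finite (A ⧸ P.1.asIdeal) (Nrm P.1)) (r : ℕ)
    (P : Fin r → Pt A (n + 1)) (a b : (i : Fin r) → (P178.kappa (P i).P)ˣ)
    (h : ∏ i, bdU (P i).P (a i) (b i) = 1) :
    (∑ i, Pi.single (P i) (sym (a i) (b i)) : (P : Pt A (n + 1)) → MilnorK₂ (P178.kappa P.P)) ∈
      bdG A n (n + 1) := by
  obtain ⟨C⟩ := exists_regCurve hdim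
  have hN₀ : Module.Finite (A ⧸ C.P₀.P.asIdeal) (Nrm C.P₀.P) := hN ⟨C.P₀.P, C.P₀.height⟩
  have key : ∀ i, ∃ y : (A ⧸ C.P₀.P.asIdeal)ˣ, C.ρU y = (bdU (P i).P (a i) (b i))⁻¹ ∧
      (Pi.single (P i) (sym (a i) (b i)) - Pi.single C.P₀ (sym C.τ (un C.P₀.P y)) :
        (P : Pt A (n + 1)) → MilnorK₂ (P178.kappa P.P)) ∈ bdG A n (n + 1) := by
    intro i
    have hNi : Module.Finite (A ⧸ (P i).P.asIdeal) (Nrm (P i).P) := hN ⟨(P i).P, (P i).height⟩
    have hcurve : IsCurve (P i).P := isCurve_of_height hdim ⟨(P i).P, (P i).height⟩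
    obtain ⟨H, hH⟩ := exists_bdH hcurve
    have h1 : sym (a i) (b i) ∈ good C (P i) H := by
      by_cases hne : P i = C.P₀
      · generalize sym (a i) (b i) = z
        revert H z
        rw [hne]
        intro H hH z
        exact good_eq_top_of_eq C hn hdim H hH z
      · exact good_eq_top_of_ne C hn hdim (P i) hne H hH _
    obtain ⟨y, hy, hmem⟩ := h1
    rw [hH, toMul_ofMul] at hy
    exact ⟨y, hy, hmem⟩
  choose y hy hmem using key
  have h2 := sum_mem (fun i (_ : i ∈ Finset.univ) => hmem i)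
  rw [Finset.sum_sub_distrib] at h2
  have h3 : (∑ i, Pi.single C.P₀ (sym C.τ (un C.P₀.P (y i))) :
      (P : Pt A (n + 1)) → MilnorK₂ (P178.kappa P.P)) =
      Pi.single C.P₀ (sym C.τ (un C.P₀.P (∏ i, y i))) := by
    have h4 : ∀ T : Finset (Fin r), (∑ i ∈ T, Pi.single C.P₀ (sym C.τ (un C.P₀.P (y i))) :
      (P : Pt A (n + 1)) → MilnorK₂ (P178.kappa P.P)) =
      Pi.single C.P₀ (sym C.τ (un C.P₀.P (∏ i ∈ T, y i))) := by
      intro T
      induction T using Finset.induction_on with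
      | empty => rw [Finset.sum_empty, Finset.prod_empty, un_one, sym_one_right, Pi.single_zero]
      | insert i T hi ih =>
        rw [Finset.sum_insert hi, Finset.prod_insert hi, ih, un_mul, sym_mul_right,
          Pi.single_add]
    exact h4 _
  have h5 : C.ρU (∏ i, y i) = 1 := by
    rw [map_prod, Finset.prod_congr rfl (fun i _ => hy i), Finset.prod_inv_distrib, h, inv_one]
  have h6 := tau_mem C hn hdim (∏ i, y i) (congrArg Units.val h5)
  rw [h3] at h2
  have h7 := add_mem h2 h6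
  rwa [sub_add_cancel] at h7

open Classical in
theorem k₂_row (hn : 1 ≤ n) (hdim : ringKrullDim A = n + 2)
    (hN : ∀ P : HtPrime A (n + 1), Module.Finite (A ⧸ P.1.asIdeal) (Nrm P.1))
    (r : ℕ) (P : Fin r → Pt A (n + 1)) (a b : (i : Fin r) → K₁ (P i).P)
    (h : ∏ i, Gersten.bd₂ (P i).P (closedPoint A) (a i) (b i) = 1) :
    (∑ i, Pi.single (P i) (sym (a i) (b i)) : (P : Pt A (n + 1)) → MilnorK₂ (Gersten.kappa P.P)) ∈
      Bd₃ A n (n + 1) := by
  refine k₂_exact hn hdim hN r P a b (Eq.trans (Finset.prod_congr rfl fun i _ => ?_) h)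
  exact (Bridge.gbd₂_eq (P i).P (closedPoint A) (a i) (b i) (bdU (P i).P (a i) (b i)) rfl).symm

end

end Vale.Agent.P178.All
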