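import Vale.Agent.P178.All.Sym

/-!
Generators of `K₂` of the fraction field of a semilocal principal ideal domain.
-/

namespace Vale.Agent.P178.All

open IsLocalRing Vale.Agent.P178 Vale.Agent.P178.Gersten

universe u

section crt

variable {R : Type*} [CommRing R]

/-- Chinese remainders. -/
theorem exists_select (hfin : {M : Ideal R | M.IsMaximal}.Finite) (g : Ideal R → R) :
    ∃ r : R, ∀ M : Ideal R, M.IsMaximal → r - g M ∈ M := by
  have : Finite {M : Ideal R | M.IsMaximal} := hfin.to_subtype
  obtain ⟨r, hr⟩ := Ideal.exists_forall_sub_mem_ideal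
    (I := fun M : {M : Ideal R | M.IsMaximal} => (M : Ideal R))
    (fun M N hne => by
      have hM' : (M : Ideal R).IsMaximal := M.2
      have hN' : (N : Ideal R).IsMaximal := N.2
      exact Ideal.isCoprime_of_isMaximal fun h => hne (Subtype.ext h)) (fun M => g M)
  exact ⟨r, fun M hM => hr ⟨M, hM⟩⟩

theorem isUnit_of_forall_notMem {a : R} (h : ∀ M : Ideal R, M.IsMaximal → a ∉ M) : IsUnit a := by
  by_contra hu
  obtain ⟨M, hM, haM⟩ := exists_max_ideal_of_mem_nonunits hu
  exact h M hM haM

open Classical in
/-- A coset with respect to a maximal ideal contains a unit. -/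
theorem exists_unit_lift (hfin : {M : Ideal R | M.IsMaximal}.Finite) {x b : R}
    (hx : (Ideal.span {x}).IsMaximal) (hb : b ∉ Ideal.span {x}) :
    ∃ k : R, IsUnit (b + x * k) := by
  obtain ⟨k, hk⟩ := exists_select hfin (fun M => if b ∈ M then 1 else 0)
  refine ⟨k, isUnit_of_forall_notMem fun M hM hmem => ?_⟩
  have h1 := hk M hM
  by_cases hxM : x ∈ M
  · have h2 : Ideal.span {x} = M := hx.eq_of_le hM.ne_top ((Ideal.span_singleton_le_iff_mem _).2 hxM)
    rw [h2] at hb
    apply hb
    have := sub_mem hmem (M.mul_mem_right k hxM)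
    rwa [add_sub_cancel_right] at this
  · by_cases hbM : b ∈ M
    · rw [if_pos hbM] at h1
      have h3 : x * k ∈ M := by
        have := sub_mem hmem hbM
        rwa [add_sub_cancel_left] at this
      have h4 : k ∈ M := (hM.isPrime.mem_or_mem h3).resolve_left hxM
      have h5 : (1 : R) ∈ M := by
        have := sub_mem h4 h1
        rwa [sub_sub_cancel] at this
      exact hM.ne_top ((Ideal.eq_top_iff_one _).2 h5)
    · rw [if_neg hbM, sub_zero] at h1
      apply hbM
      have := sub_mem hmem (M.mul_mem_left x h1)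
      rwa [add_sub_cancel_right] at this

open Classical in
/-- A unimodular relation with unit coefficients. -/
theorem exists_unit_relation (hfin : {M : Ideal R | M.IsMaximal}.Finite) {q c : R}
    (hq : (Ideal.span {q}).IsMaximal) (hc : c ∉ Ideal.span {q})
    (hcM : ∀ M : Ideal R, M.IsMaximal → M ≠ Ideal.span {q} → c ∈ M) :
    ∃ u v : Rˣ, c * u + q * v = 1 := by
  obtain ⟨α, β, hαβ⟩ : ∃ α β : R, c * α + q * β = 1 := by
    obtain ⟨y, i, hi, h⟩ := hq.exists_inv hc
    obtain ⟨β, rfl⟩ := Ideal.mem_span_singleton'.1 hi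
    exact ⟨y, β, by rw [← h]; ring⟩
  have hne : ∀ M : Ideal R, M.IsMaximal → (1 : R) ∉ M := fun M hM h =>
    hM.ne_top ((Ideal.eq_top_iff_one _).2 h)
  have hqM : ∀ M : Ideal R, M.IsMaximal → q ∈ M → M = Ideal.span {q} := fun M hM h =>
    (hq.eq_of_le hM.ne_top ((Ideal.span_singleton_le_iff_mem _).2 h)).symm
  have hqq : q ∈ Ideal.span {q} := Ideal.mem_span_singleton_self q
  obtain ⟨k, hk⟩ := exists_select hfin (fun M =>
    if M = Ideal.span {q} then (if β ∈ M then 1 else 0) else (if α ∈ M then 1 else 0))
  have hu : IsUnit (α + q * k) := isUnit_of_forall_notMem fun M hM hmem => by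
    have h1 := hk M hM
    by_cases hMq : M = Ideal.span {q}
    · have hq' : q ∈ M := by rw [hMq]; exact hqq
      have h2 : α ∈ M := by
        have := sub_mem hmem (M.mul_mem_right k hq')
        rwa [add_sub_cancel_right] at this
      apply hne M hM
      rw [← hαβ]
      exact add_mem (M.mul_mem_left _ h2) (M.mul_mem_right _ hq')
    · rw [if_neg hMq] at h1
      by_cases hα : α ∈ M
      · rw [if_pos hα] at h1
        have h3 : q * k ∈ M := by
          have := sub_mem hmem hα
          rwa [add_sub_cancel_left] at this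
        have h4 : k ∈ M := (hM.isPrime.mem_or_mem h3).resolve_left fun h => hMq (hqM M hM h)
        apply hne M hM
        have := sub_mem h4 h1
        rwa [sub_sub_cancel] at this
      · rw [if_neg hα, sub_zero] at h1
        apply hα
        have := sub_mem hmem (M.mul_mem_left q h1)
        rwa [add_sub_cancel_right] at this
  have hv : IsUnit (β - c * k) := isUnit_of_forall_notMem fun M hM hmem => by
    have h1 := hk M hM
    by_cases hMq : M = Ideal.span {q}
    · rw [if_pos hMq] at h1
      by_cases hβ : β ∈ M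
      · rw [if_pos hβ] at h1
        have h3 : c * k ∈ M := by
          have := sub_mem hβ hmem
          rwa [sub_sub_cancel] at this
        have h4 : k ∈ M := (hM.isPrime.mem_or_mem h3).resolve_left fun h => hc (hMq ▸ h)
        apply hne M hM
        have := sub_mem h4 h1
        rwa [sub_sub_cancel] at this
      · rw [if_neg hβ, sub_zero] at h1
        apply hβ
        have := add_mem hmem (M.mul_mem_left c h1)
        rwa [sub_add_cancel] at this
    · have hcM' := hcM M hM hMq
      have h2 : β ∈ M := by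
        have := add_mem hmem (M.mul_mem_right k hcM')
        rwa [sub_add_cancel] at this
      apply hne M hM
      rw [← hαβ]
      exact add_mem (M.mul_mem_right _ hcM') (M.mul_mem_left _ h2)
  refine ⟨hu.unit, hv.unit, ?_⟩
  rw [IsUnit.unit_spec, IsUnit.unit_spec, ← hαβ]
  ring

end crt

section generation

variable {R K : Type u} [CommRing R] [IsDomain R] [Field K] [Algebra R K] [IsFractionRing R K]

/-- The image of a nonzero element. -/
noncomputable def el (K : Type u) [Field K] [Algebra R K] [IsFractionRing R K] (r : R)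
    (hr : r ≠ 0) : Kˣ :=
  Units.mk0 (algebraMap R K r) (by rw [Ne, IsFractionRing.to_map_eq_zero_iff]; exact hr)

theorem el_mul {r s : R} (hr : r ≠ 0) (hs : s ≠ 0) :
    el K (r * s) (mul_ne_zero hr hs) = el K r hr * el K s hs :=
  Units.ext (map_mul _ _ _)

theorem el_unit (w : Rˣ) : el K (w : R) w.ne_zero = Units.map (algebraMap R K).toMonoidHom w :=
  Units.ext rfl

theorem exists_el (x : Kˣ) : ∃ (a b : R) (ha : a ≠ 0) (hb : b ≠ 0), x = el K a ha * (el K b hb)⁻¹ := by
  obtain ⟨a, b, hb, h⟩ := IsFractionRing.div_surjective (A := R) (x : K)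
  have hb0 : b ≠ 0 := nonZeroDivisors.ne_zero hb
  have ha0 : a ≠ 0 := by
    rintro rfl
    rw [map_zero, zero_div] at h
    exact x.ne_zero h.symm
  refine ⟨a, b, ha0, hb0, Units.ext ?_⟩
  rw [Units.val_mul, Units.val_inv_eq_inv_val, ← div_eq_mul_inv]
  exact h.symm

variable [IsPrincipalIdealRing R] (hfin : {M : Ideal R | M.IsMaximal}.Finite)
  (G : AddSubgroup (MilnorK₂ K))
  (h1 : ∀ u v : Rˣ, sym (Units.map (algebraMap R K).toMonoidHom u)
    (Units.map (algebraMap R K).toMonoidHom v) ∈ G)
  (h2 : ∀ (p : R) (hp : Prime p) (u : Rˣ), sym (el K p hp.ne_zero)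
    (Units.map (algebraMap R K).toMonoidHom u) ∈ G)

include h1 h2 in
theorem sym_el_unit_mem (r : R) (hr : r ≠ 0) (u : Rˣ) :
    sym (el K r hr) (Units.map (algebraMap R K).toMonoidHom u) ∈ G := by
  induction r using UniqueFactorizationMonoid.induction_on_prime with
  | h₁ => exact absurd rfl hr
  | h₂ x hx =>
    obtain ⟨w, rfl⟩ := hx
    rw [el_unit]
    exact h1 w u
  | h₃ a p ha hp ih =>
    rw [el_mul hp.ne_zero ha, sym_mul_left]
    exact add_mem (h2 p hp u) (ih ha)

include hfin h1 h2 in
open Classical in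
theorem sym_el_prime_mem (r q : R) (hr : r ≠ 0) (hq : Prime q) :
    sym (el K r hr) (el K q hq.ne_zero) ∈ G := by
  have hprime : (Ideal.span {q}).IsPrime := (Ideal.span_singleton_prime hq.ne_zero).2 hq
  have hmax : (Ideal.span {q}).IsMaximal := hprime.isMaximal (by
    rw [Ne, Ideal.span_singleton_eq_bot]; exact hq.ne_zero)
  have hU : ∀ (u : Rˣ) (s : R) (hs : s ≠ 0),
      sym (Units.map (algebraMap R K).toMonoidHom u) (el K s hs) ∈ G := by
    intro u s hs
    rw [sym_swap]
    exact neg_mem (sym_el_unit_mem G h1 h2 s hs u)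
  -- elements in all the other maximal ideals
  have key : ∀ (c : R) (hc0 : c ≠ 0), c ∉ Ideal.span {q} →
      (∀ M : Ideal R, M.IsMaximal → M ≠ Ideal.span {q} → c ∈ M) →
      sym (el K c hc0) (el K q hq.ne_zero) ∈ G := by
    intro c hc0 hc hcM
    obtain ⟨u, v, huv⟩ := exists_unit_relation hfin hmax hc hcM
    have h3 : sym (el K c hc0 * Units.map (algebraMap R K).toMonoidHom u)
        (el K q hq.ne_zero * Units.map (algebraMap R K).toMonoidHom v) = 0 := by
      apply sym_steinberg
      have h4 := congrArg (algebraMap R K) huv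
      rw [map_add, map_mul, map_mul, map_one] at h4
      exact h4
    rw [sym_mul_left, sym_mul_right, sym_mul_right] at h3
    have h5 := sym_el_unit_mem G h1 h2 c hc0 v
    have h6 := hU u q hq.ne_zero
    have h7 := h1 u v
    have h8 : sym (el K c hc0) (el K q hq.ne_zero) =
        -(sym (el K c hc0) (Units.map (algebraMap R K).toMonoidHom v) +
          (sym (Units.map (algebraMap R K).toMonoidHom u) (el K q hq.ne_zero) +
            sym (Units.map (algebraMap R K).toMonoidHom u)
              (Units.map (algebraMap R K).toMonoidHom v))) := by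
      rw [eq_neg_iff_add_eq_zero, ← h3]
      abel
    rw [h8]
    exact neg_mem (add_mem h5 (add_mem h6 h7))
  obtain ⟨c, hc⟩ := exists_select hfin (fun M => if M = Ideal.span {q} then 1 else 0)
  have hcq : c ∉ Ideal.span {q} := by
    intro hmem
    have h3 := hc _ hmax
    rw [if_pos rfl] at h3
    have h4 : (1 : R) ∈ Ideal.span {q} := by
      have := sub_mem hmem h3
      rwa [sub_sub_cancel] at this
    exact hmax.ne_top ((Ideal.eq_top_iff_one _).2 h4)
  have hcM : ∀ M : Ideal R, M.IsMaximal → M ≠ Ideal.span {q} → c ∈ M := by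
    intro M hM hne
    have h3 := hc M hM
    rwa [if_neg hne, sub_zero] at h3
  have hc0 : c ≠ 0 := fun h => hcq (by rw [h]; exact zero_mem _)
  induction r using UniqueFactorizationMonoid.induction_on_prime with
  | h₁ => exact absurd rfl hr
  | h₂ x hx =>
    obtain ⟨w, rfl⟩ := hx
    rw [el_unit]
    exact hU w q hq.ne_zero
  | h₃ a p ha hp ih =>
    rw [el_mul hp.ne_zero ha, sym_mul_left]
    refine add_mem ?_ (ih ha)
    by_cases hpq : p ∈ Ideal.span {q}
    · -- associated primes
      have h3 : Associated q p := by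
        rw [Ideal.mem_span_singleton] at hpq
        exact hq.associated_of_dvd hp hpq
      obtain ⟨w, rfl⟩ := h3
      have h4 : el K (q * w) hp.ne_zero = el K q hq.ne_zero *
          Units.map (algebraMap R K).toMonoidHom w := Units.ext (map_mul _ _ _)
      rw [h4, sym_mul_left, sym_self]
      refine add_mem ?_ (hU w q hq.ne_zero)
      have h5 : (-1 : Kˣ) = Units.map (algebraMap R K).toMonoidHom (-1) := by
        ext
        simp
      rw [h5]
      exact h2 q hq (-1)
    · have h3 := key (p * c) (mul_ne_zero hp.ne_zero hc0) (fun h =>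
        (hprime.mem_or_mem h).elim hpq hcq) (fun M hM hne => M.mul_mem_left p (hcM M hM hne))
      rw [el_mul hp.ne_zero hc0, sym_mul_left] at h3
      exact (add_mem_cancel_right (key c hc0 hcq hcM)).1 h3

include hfin h1 h2 in
theorem sym_el_mem (r s : R) (hr : r ≠ 0) (hs : s ≠ 0) :
    sym (el K r hr) (el K s hs) ∈ G := by
  induction s using UniqueFactorizationMonoid.induction_on_prime with
  | h₁ => exact absurd rfl hs
  | h₂ x hx =>
    obtain ⟨w, rfl⟩ := hx
    rw [el_unit]
    exact sym_el_unit_mem G h1 h2 r hr w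
  | h₃ a p ha hp ih =>
    rw [el_mul hp.ne_zero ha, sym_mul_right]
    exact add_mem (sym_el_prime_mem hfin G h1 h2 r p hr hp) (ih ha)

include hfin h1 h2 in
/-- Generators of `K₂` of the fraction field. -/
theorem sym_mem_of_gens (x y : Kˣ) : sym x y ∈ G := by
  obtain ⟨a, b, ha, hb, rfl⟩ := exists_el (R := R) x
  obtain ⟨c, d, hc, hd, rfl⟩ := exists_el (R := R) y
  rw [sym_mul_left, sym_inv_left, sym_mul_right, sym_mul_right, sym_inv_right, sym_inv_right]
  have h := sym_el_mem hfin G h1 h2
  exact add_mem (add_mem (h _ _ _ _) (neg_mem (h _ _ _ _)))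
    (neg_mem (add_mem (h _ _ _ _) (neg_mem (h _ _ _ _))))

/-- Symbols generate. -/
theorem mem_of_sym_mem (G : AddSubgroup (MilnorK₂ K)) (h : ∀ x y : Kˣ, sym x y ∈ G)
    (z : MilnorK₂ K) : z ∈ G := by
  obtain ⟨z, rfl⟩ := QuotientAddGroup.mk'_surjective (K₂Rel K) z
  induction z using FreeAbelianGroup.induction_on with
  | zero => rw [map_zero]; exact zero_mem _
  | of x => exact h x.1 x.2
  | neg x hx => rw [map_neg]; exact neg_mem hx
  | add x y hx hy => rw [map_add]; exact add_mem hx hy

end generation

end Vale.Agent.P178.All
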