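import Vale.Agent.P178.Bdl.B1

/-!
The surface attached to two curves glued at a point, with lifting of units.
-/

namespace Vale.Agent.P178.All

open IsLocalRing Vale.Agent.P178

universe u

variable (A : Type u) [CommRing A] [IsRegularLocalRing A]

/-- The surface attached to two curves glued at a point. -/
theorem exists_surface_two_max
    (n : ℕ) (hn : 1 ≤ n) (hdim : ringKrullDim A = n + 2)
    {B₁ B₂ F : Type u} [CommRing B₁] [CommRing B₂] [CommRing F]
    [Algebra A B₁] [Algebra A B₂] [Algebra A F] [Module.Finite A B₁] [Module.Finite A B₂]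
    [IsDomain B₁] [IsPrincipalIdealRing B₁] [IsDomain B₂] [IsDiscreteValuationRing B₂]
    (f₁ : B₁ →ₐ[A] F) (f₂ : B₂ →ₐ[A] F)
    (h₁ : Function.Surjective f₁) (h₂ : Function.Surjective f₂)
    {x : B₁} {t : B₂} (hk₁ : RingHom.ker f₁ = Ideal.span {x})
    (hk₂ : RingHom.ker f₂ = maximalIdeal B₂) (ht : maximalIdeal B₂ = Ideal.span {t})
    (hx : (Ideal.span {x}).IsMaximal) (hx0 : x ≠ 0)
    (hbir : ∀ b : B₁, ∃ s a : A, algebraMap A B₁ s ≠ 0 ∧
      algebraMap A B₁ s * b = algebraMap A B₁ a)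
    (hne : ¬ RingHom.ker (algebraMap A B₂) ≤ RingHom.ker (algebraMap A B₁)) :
    ∃ (E : Type u) (_ : CommRing E) (_ : Algebra A E) (_ : Module.Finite A E) (_ : IsDomain E)
      (ψ₁ : E →ₐ[A] B₁) (ψ₂ : E →ₐ[A] B₂) (g₁ g₂ : E),
      Function.Surjective ψ₁ ∧ Function.Surjective ψ₂ ∧ Prime g₁ ∧ Prime g₂ ∧
      RingHom.ker ψ₁ = Ideal.span {g₁} ∧ RingHom.ker ψ₂ = Ideal.span {g₂} ∧
      Associated (ψ₁ g₂) x ∧ Associated (ψ₂ g₁) t ∧
      (∀ q : Ideal E, q.IsPrime →
        q.comap (algebraMap A E) = RingHom.ker (algebraMap A B₁) → q = RingHom.ker ψ₁) ∧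
      (∀ e : E, ∃ s a : A, algebraMap A B₁ s ≠ 0 ∧
        algebraMap A E s * e = algebraMap A E a) ∧
      (RingHom.ker (algebraMap A E)).height = n ∧
      (∀ (b₁ : B₁) (b₂ : B₂), f₁ b₁ = f₂ b₂ → ∃ e : E, ψ₁ e = b₁ ∧ ψ₂ e = b₂) ∧
      (∀ M : Ideal E, M.IsMaximal → RingHom.ker ψ₁ ≤ M) := by
  have hfield₁ : ¬ IsField B₁ := by
    intro h
    have h1 := Ring.ne_bot_of_isMaximal_of_not_isField hx
    let _ := h.toField
    have h2 : Ideal.span {x} = ⊤ := (Ideal.eq_bot_or_top (Ideal.span {x})).resolve_left (by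
      rw [Ideal.span_singleton_eq_bot]; exact hx0)
    exact hx.ne_top h2
  have hfield₂ : ¬ IsField B₂ := IsDiscreteValuationRing.not_isField B₂
  have hP₁prime : (RingHom.ker (gfst f₁ f₂)).IsPrime := RingHom.ker_isPrime _
  have hs₁ := gfst_surjective f₁ f₂ h₂
  have hs₂ := gsnd_surjective f₁ f₂ h₁
  have hfx : f₁ x = 0 := by
    rw [← RingHom.mem_ker, hk₁]; exact Ideal.mem_span_singleton_self x
  have hft : f₂ t = 0 := by
    rw [← RingHom.mem_ker, hk₂, ht]; exact Ideal.mem_span_singleton_self t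
  have hcomap : ∀ s : A, algebraMap A (glue f₁ f₂) s ∈ RingHom.ker (gfst f₁ f₂) ↔
      algebraMap A B₁ s = 0 := by
    intro s
    rw [RingHom.mem_ker, AlgHom.commutes]
  have hcomap' : (RingHom.ker (gfst f₁ f₂)).comap (algebraMap A (glue f₁ f₂)) =
      RingHom.ker (algebraMap A B₁) := by
    ext s
    rw [Ideal.mem_comap, hcomap, RingHom.mem_ker]
  obtain ⟨E, _, _, _, _, φ, hφ, hmaxE, hregE, huniqE, hbirE, hht⟩ :=
    exists_regular_cover A (glue f₁ f₂) (RingHom.ker (gfst f₁ f₂)) 1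
      (by
        rw [hdim]
        gcongr)
      (ker_gfst_le f₁ f₂ h₁ hk₂)
      (by
        intro hmax
        apply hfield₁
        let e := RingHom.quotientKerEquivOfSurjective (f := (gfst f₁ f₂ : glue f₁ f₂ →+* B₁)) hs₁
        have h1 : IsField (glue f₁ f₂ ⧸ RingHom.ker (gfst f₁ f₂ : glue f₁ f₂ →+* B₁)) :=
          (Ideal.Quotient.maximal_ideal_iff_isField_quotient _).1 hmax
        exact MulEquiv.isField h1 e.symm.toMulEquiv)
      (glue_embedding f₁ f₂ h₁ h₂ hk₁ hk₂ ht hx)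
      (by
        intro c
        obtain ⟨s, a, hs, hsa⟩ := hbir (gfst f₁ f₂ c)
        refine ⟨s, a, ?_, ?_⟩
        · rw [hcomap]; exact hs
        · rw [RingHom.mem_ker, map_sub, map_mul, AlgHom.commutes, AlgHom.commutes, hsa, sub_self])
      (by
        refine ⟨⟨(x, 0), by rw [mem_glue_iff, hfx, map_zero]⟩, fun h => hx0 h, fun y hy => ?_⟩
        rw [mul_comm]
        exact ker_mul_ker f₁ f₂ hy rfl)
      (by
        intro q hq hqc
        by_cases hle : RingHom.ker (gfst f₁ f₂) ≤ q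
        · exact (eq_of_le_of_comap_eq (A := A) hle hqc.symm).symm
        · exfalso
          obtain ⟨y, hy, hyq⟩ := SetLike.not_le_iff_exists.1 hle
          apply hne
          intro s hs
          have h0 : gsnd f₁ f₂ (algebraMap A (glue f₁ f₂) s) = 0 := by
            rw [AlgHom.commutes]; exact hs
          have h1 : y * algebraMap A (glue f₁ f₂) s = 0 := ker_mul_ker f₁ f₂ hy h0
          have h2 : y * algebraMap A (glue f₁ f₂) s ∈ q := by rw [h1]; exact zero_mem _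
          have h3 : s ∈ q.comap (algebraMap A (glue f₁ f₂)) :=
            (hq.mem_or_mem h2).resolve_left hyq
          rw [hqc, hcomap'] at h3
          exact h3)
  have hnoeth : IsNoetherianRing E := IsNoetherianRing.of_finite A E
  have hfin := finite_maximalIdeals (A := A) E
  have hregE' : ∀ (M : Ideal E) [M.IsMaximal], IsRegularLocalRing (Localization.AtPrime M) ∧
        ringKrullDim (Localization.AtPrime M) = 2 := by
    intro M _
    obtain ⟨h1, h2⟩ := hregE M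
    refine ⟨h1, h2.trans ?_⟩
    norm_num
  let ψ₁ : E →ₐ[A] B₁ := (gfst f₁ f₂).comp φ
  let ψ₂ : E →ₐ[A] B₂ := (gsnd f₁ f₂).comp φ
  have hψ₁ : Function.Surjective ψ₁ := hs₁.comp hφ
  have hψ₂ : Function.Surjective ψ₂ := hs₂.comp hφ
  obtain ⟨g₁, hg₁, hker₁⟩ := exists_prime_generator hfield₁ hfin hregE' (ψ₁ : E →+* B₁) hψ₁
  obtain ⟨g₂, hg₂, hker₂⟩ := exists_prime_generator hfield₂ hfin hregE' (ψ₂ : E →+* B₂) hψ₂
  refine ⟨E, inferInstance, inferInstance, inferInstance, inferInstance, ψ₁, ψ₂, g₁, g₂,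
    hψ₁, hψ₂, hg₁, hg₂, hker₁, hker₂, ?_, ?_, ?_, ?_, ?_, ?_, ?_⟩
  · -- the ideal generated by `ψ₁ g₂` is the kernel of `f₁`
    rw [← Ideal.span_singleton_eq_span_singleton, ← hk₁]
    apply le_antisymm
    · rw [Ideal.span_singleton_le_iff_mem, RingHom.mem_ker]
      have h1 : f₁ (gfst f₁ f₂ (φ g₂)) = f₂ (gsnd f₁ f₂ (φ g₂)) := (φ g₂).2
      have h2 : gsnd f₁ f₂ (φ g₂) = 0 := by
        have : g₂ ∈ RingHom.ker (ψ₂ : E →+* B₂) := by
          rw [hker₂]; exact Ideal.mem_span_singleton_self g₂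
        exact this
      change f₁ (gfst f₁ f₂ (φ g₂)) = 0
      rw [h1, h2, map_zero]
    · intro b hb
      obtain ⟨e, he⟩ := hφ ⟨(b, 0), by rw [mem_glue_iff, (RingHom.mem_ker).1 hb, map_zero]⟩
      have h1 : e ∈ RingHom.ker (ψ₂ : E →+* B₂) := by
        change gsnd f₁ f₂ (φ e) = 0
        rw [he]
        rfl
      rw [hker₂, Ideal.mem_span_singleton'] at h1
      obtain ⟨c, hc⟩ := h1
      rw [Ideal.mem_span_singleton']
      refine ⟨ψ₁ c, ?_⟩
      rw [← map_mul, hc]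
      change gfst f₁ f₂ (φ e) = b
      rw [he]
      rfl
  · rw [← Ideal.span_singleton_eq_span_singleton, ← ht, ← hk₂]
    apply le_antisymm
    · rw [Ideal.span_singleton_le_iff_mem, RingHom.mem_ker]
      have h1 : f₁ (gfst f₁ f₂ (φ g₁)) = f₂ (gsnd f₁ f₂ (φ g₁)) := (φ g₁).2
      have h2 : gfst f₁ f₂ (φ g₁) = 0 := by
        have : g₁ ∈ RingHom.ker (ψ₁ : E →+* B₁) := by
          rw [hker₁]; exact Ideal.mem_span_singleton_self g₁
        exact this
      change f₂ (gsnd f₁ f₂ (φ g₁)) = 0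
      rw [← h1, h2, map_zero]
    · intro b hb
      obtain ⟨e, he⟩ := hφ ⟨(0, b), by rw [mem_glue_iff, (RingHom.mem_ker).1 hb, map_zero]⟩
      have h1 : e ∈ RingHom.ker (ψ₁ : E →+* B₁) := by
        change gfst f₁ f₂ (φ e) = 0
        rw [he]
        rfl
      rw [hker₁, Ideal.mem_span_singleton'] at h1
      obtain ⟨c, hc⟩ := h1
      rw [Ideal.mem_span_singleton']
      refine ⟨ψ₂ c, ?_⟩
      rw [← map_mul, hc]
      change gsnd f₁ f₂ (φ e) = b
      rw [he]
      rfl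
  · intro q hq hqc
    rw [huniqE q hq (by rw [hqc, hcomap'])]
    rfl
  · intro e
    obtain ⟨s, a, hs, hsa⟩ := hbirE e
    exact ⟨s, a, fun h => hs ((hcomap s).2 h), hsa⟩
  · exact height_of_add_eq (by rw [← hdim, ← hht])
  · intro b₁ b₂ hb
    obtain ⟨e, he⟩ := hφ ⟨(b₁, b₂), by rw [mem_glue_iff]; exact hb⟩
    refine ⟨e, ?_, ?_⟩
    · change gfst f₁ f₂ (φ e) = b₁
      rw [he]
      rfl
    · change gsnd f₁ f₂ (φ e) = b₂
      rw [he]
      rfl
  · intro M hM y hy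
    have hMmap : (M.map φ).IsMaximal := Ideal.IsMaximal.map_of_surjective_of_ker_le hφ (hmaxE M hM)
    have h1 := ker_gfst_le f₁ f₂ h₁ hk₂ (M.map φ) hMmap
    have h2 : y ∈ (M.map φ).comap φ := h1 hy
    rw [Ideal.comap_map_of_surjective φ hφ] at h2
    have h3 : (⊥ : Ideal (glue f₁ f₂)).comap φ ≤ M := fun z hz => hmaxE M hM hz
    exact (sup_le le_rfl h3) h2

end Vale.Agent.P178.All
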