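import Vale.Agent.P178.All.Sym

/-!
The tame symbols of a curve as a homomorphism on `K₂`.
-/

namespace Vale.Agent.P178.All

open IsLocalRing Vale.Agent.P178 Vale.Agent.P178.Gersten

universe u

variable {A : Type u} [CommRing A]

section place

variable {Q P : PrimeSpectrum A} (v : P178.Place Q P)

theorem res_mul' {x y : P178.kappa Q} (hx0 : x ≠ 0) (hy0 : y ≠ 0) (hx : v.val x = 0)
    (hy : v.val y = 0) : v.res (x * y) = v.res x * v.res y := by
  obtain ⟨s, rfl⟩ := v.exists_unit_of_val_eq_zero hx0 hx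
  obtain ⟨t, rfl⟩ := v.exists_unit_of_val_eq_zero hy0 hy
  rw [v.res_of_mem (s : v.V).2, v.res_of_mem (t : v.V).2,
    v.res_of_mem (mul_mem (s : v.V).2 (t : v.V).2), ← map_mul]
  rfl

theorem val_nonneg {x : P178.kappa Q} (hx0 : x ≠ 0) (hx : x ∈ v.V) : 0 ≤ v.val x := by
  obtain ⟨π, hπ⟩ := IsDiscreteValuationRing.exists_irreducible v.V
  have hx0' : (⟨x, hx⟩ : v.V) ≠ 0 := fun h => hx0 (congrArg Subtype.val h)
  obtain ⟨k, w, hw⟩ := IsDiscreteValuationRing.eq_unit_mul_pow_irreducible hx0' hπ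
  have h1 : x = ((w : v.V) : P178.kappa Q) * ((π : v.V) : P178.kappa Q) ^ (k : ℤ) := by
    rw [zpow_natCast]
    exact congrArg Subtype.val hw
  have hπ0 : ((π : v.V) : P178.kappa Q) ≠ 0 := fun h => hπ.ne_zero (Subtype.ext h)
  have hw0 : ((w : v.V) : P178.kappa Q) ≠ 0 := fun h => w.ne_zero (Subtype.ext h)
  rw [h1, v.val_mul hw0 (zpow_ne_zero _ hπ0), v.val_zpow, v.val_of_isUnit w.isUnit,
    v.val_of_irreducible hπ]
  omega

theorem mem_of_val_nonneg {x : P178.kappa Q} (hx0 : x ≠ 0) (hx : 0 ≤ v.val x) : x ∈ v.V := by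
  rcases v.V.mem_or_inv_mem x with h | h
  · exact h
  · have h1 := val_nonneg v (inv_ne_zero hx0) h
    rw [v.val_inv] at h1
    obtain ⟨t, rfl⟩ := v.exists_unit_of_val_eq_zero hx0 (by omega)
    exact (t : v.V).2

theorem res_of_val_pos {x : P178.kappa Q} (hx0 : x ≠ 0) (hx : 0 < v.val x) : v.res x = 0 := by
  have hmem := mem_of_val_nonneg v hx0 hx.le
  rw [v.res_of_mem hmem, IsLocalRing.residue_eq_zero_iff, IsLocalRing.mem_maximalIdeal,
    mem_nonunits_iff]
  intro hu
  have := v.val_of_isUnit hu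
  change v.val x = 0 at this
  omega

/-- The argument of the tame symbol. -/
theorem tame_mul_left {a a' b : P178.kappa Q} (ha : a ≠ 0) (ha' : a' ≠ 0) (hb : b ≠ 0) :
    v.tame (a * a') b = v.tame a b * v.tame a' b := by
  have h1 : (-1 : P178.kappa Q) ≠ 0 := neg_ne_zero.2 one_ne_zero
  have hne : ∀ {x y : P178.kappa Q}, x ≠ 0 → y ≠ 0 →
      (-1) ^ (v.val x * v.val y) * x ^ v.val y / y ^ v.val x ≠ 0 := fun hx hy =>
    div_ne_zero (mul_ne_zero (zpow_ne_zero _ h1) (zpow_ne_zero _ hx)) (zpow_ne_zero _ hy)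
  rw [Place.tame, Place.tame, Place.tame,
    ← res_mul' v (hne ha hb) (hne ha' hb) (v.val_tame_arg ha hb) (v.val_tame_arg ha' hb)]
  congr 1
  rw [v.val_mul ha ha', add_mul, zpow_add₀ h1, mul_zpow, zpow_add₀ hb]
  field_simp

theorem tame_swap {a b : P178.kappa Q} (ha : a ≠ 0) (hb : b ≠ 0) :
    v.tame b a = (v.tame a b)⁻¹ := by
  have h1 : (-1 : P178.kappa Q) ≠ 0 := neg_ne_zero.2 one_ne_zero
  rw [Place.tame, Place.tame, ← v.res_inv _ (v.val_tame_arg ha hb)]
  · congr 1
    rw [inv_div, mul_comm (v.val b) (v.val a)]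
    have h2 : ((-1 : P178.kappa Q) ^ (v.val a * v.val b)) *
        (-1 : P178.kappa Q) ^ (v.val a * v.val b) = 1 := by
      rw [← mul_zpow, neg_one_mul, neg_neg, one_zpow]
    rw [div_eq_div_iff (zpow_ne_zero _ ha)
      (mul_ne_zero (zpow_ne_zero _ h1) (zpow_ne_zero _ ha))]
    calc (-1 : P178.kappa Q) ^ (v.val a * v.val b) * b ^ v.val a *
          ((-1) ^ (v.val a * v.val b) * a ^ v.val b)
        = (((-1 : P178.kappa Q) ^ (v.val a * v.val b)) *
          (-1 : P178.kappa Q) ^ (v.val a * v.val b)) * (b ^ v.val a * a ^ v.val b) := by ring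
      _ = b ^ v.val a * a ^ v.val b := by rw [h2, one_mul]
  · exact div_ne_zero (mul_ne_zero (zpow_ne_zero _ h1) (zpow_ne_zero _ ha)) (zpow_ne_zero _ hb)

theorem tame_neg_self {a : P178.kappa Q} (ha : a ≠ 0) : v.tame a (-a) = 1 := by
  have h1 : (-1 : P178.kappa Q) ≠ 0 := neg_ne_zero.2 one_ne_zero
  have hval : v.val (-a) = v.val a := by
    rw [← neg_one_mul, v.val_mul h1 ha, v.val_neg_one, zero_add]
  have h2 : (-1 : P178.kappa Q) ^ (v.val a * v.val a) * a ^ v.val a / (-a) ^ v.val a = 1 := by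
    rw [← neg_one_mul a, mul_zpow, mul_div_mul_right _ _ (zpow_ne_zero _ ha),
      ← zpow_sub₀ h1]
    have h3 : Even (v.val a * v.val a - v.val a) := by
      rw [show v.val a * v.val a - v.val a = v.val a * (v.val a - 1) by ring]
      exact Int.even_mul_pred_self _
    exact h3.neg_one_zpow
  rw [Place.tame, hval, h2, v.res_of_mem v.V.one_mem]
  exact map_one _

theorem tame_steinberg_pos {a b : P178.kappa Q} (ha : a ≠ 0) (hb : b ≠ 0) (h : a + b = 1)
    (hpos : 0 < v.val a) : v.tame a b = 1 := by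
  have hamem := mem_of_val_nonneg v ha hpos.le
  have hbmem : b ∈ v.V := by
    rw [← eq_sub_iff_add_eq'] at h
    rw [h]
    exact sub_mem v.V.one_mem hamem
  have hres : v.res b = 1 := by
    have h1 : v.res a + v.res b = 1 := by
      rw [v.res_of_mem hamem, v.res_of_mem hbmem, ← map_add]
      have h2 : (⟨a, hamem⟩ : v.V) + ⟨b, hbmem⟩ = 1 := Subtype.ext h
      rw [h2, map_one]
    rwa [res_of_val_pos v ha hpos, zero_add] at h1
  have hbval : v.val b = 0 := by
    rcases (val_nonneg v hb hbmem).eq_or_lt with h1 | h1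
    · exact h1.symm
    · have := res_of_val_pos v hb h1
      rw [hres] at this
      exact absurd this one_ne_zero
  have hzpow : ∀ k : ℕ, v.res (b ^ k) = 1 := by
    intro k
    induction k with
    | zero =>
      rw [pow_zero, v.res_of_mem v.V.one_mem]
      exact map_one _
    | succ k ih =>
      rw [pow_succ, res_mul' v (pow_ne_zero _ hb) hb _ hbval, ih, hres, one_mul]
      rw [← zpow_natCast, v.val_zpow, hbval, mul_zero]
  obtain ⟨k, hk⟩ := Int.eq_ofNat_of_zero_le hpos.le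
  rw [Place.tame, hbval, mul_zero, zpow_zero, zpow_zero, one_mul, one_div, hk, zpow_natCast,
    v.res_inv (pow_ne_zero _ hb), hzpow, inv_one]
  rw [← zpow_natCast, v.val_zpow, hbval, mul_zero]

theorem tame_steinberg {a b : P178.kappa Q} (ha : a ≠ 0) (hb : b ≠ 0) (h : a + b = 1) :
    v.tame a b = 1 := by
  have h1 : (-1 : P178.kappa Q) ≠ 0 := neg_ne_zero.2 one_ne_zero
  rcases lt_trichotomy (v.val a) 0 with h2 | h2 | h2
  · -- `b = (-a) (1 - a⁻¹)`
    have h3 : b = (-a) * (1 - a⁻¹) := by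
      rw [← eq_sub_iff_add_eq'] at h
      rw [h]
      field_simp
      ring
    have h4 : (1 - a⁻¹) ≠ 0 := by
      intro h5
      rw [h5, mul_zero] at h3
      exact hb h3
    have h5 := tame_steinberg_pos v (inv_ne_zero ha) h4 (by ring) (by rw [v.val_inv]; omega)
    rw [v.tame_inv_left ha h4, inv_eq_one] at h5
    have h6 : v.tame a (1 - a⁻¹) = (v.tame (1 - a⁻¹) a)⁻¹ := tame_swap v h4 ha
    have h7 := tame_neg_self v ha
    rw [tame_swap v (neg_ne_zero.2 ha) ha, inv_eq_one] at h7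
    rw [tame_swap v hb ha, h3, tame_mul_left v (neg_ne_zero.2 ha) h4 ha, h7, one_mul, ← h6, h5]
  · rcases lt_trichotomy (v.val b) 0 with h3 | h3 | h3
    · exfalso
      have hamem := mem_of_val_nonneg v ha h2.ge
      have hbmem : b ∈ v.V := by
        rw [← eq_sub_iff_add_eq'] at h
        rw [h]
        exact sub_mem v.V.one_mem hamem
      have := val_nonneg v hb hbmem
      omega
    · exact v.tame_of_units h2 h3
    · rw [tame_swap v hb ha, tame_steinberg_pos v hb ha (by rw [add_comm]; exact h) h3, inv_one]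
  · exact tame_steinberg_pos v ha hb h h2

end place

section curve

variable [IsLocalRing A] [IsNoetherianRing A] {P : PrimeSpectrum A}
  [Module.Finite (A ⧸ P.asIdeal) (Nrm P)]

/-- The residue map `K₂ → K₁` of a curve, on symbols. -/
noncomputable def bdU (P : PrimeSpectrum A) (a b : (P178.kappa P)ˣ) :
    (P178.kappa (closedPoint A))ˣ :=
  Units.mk0 (P178.bd₂ P (closedPoint A) a b) (Bridge.bd₂_ne_zero P _ a.ne_zero b.ne_zero)

theorem bdU_mul_left (hP : IsCurve P) (a a' b : (P178.kappa P)ˣ) :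
    bdU P (a * a') b = bdU P a b * bdU P a' b := by
  have := hP.finite_place
  ext
  change P178.bd₂ P (closedPoint A) (a * a' : P178.kappa P) b =
    P178.bd₂ P (closedPoint A) a b * P178.bd₂ P (closedPoint A) a' b
  rw [P178.bd₂, P178.bd₂, P178.bd₂, ← finprod_mul_distrib (Set.toFinite _) (Set.toFinite _)]
  refine finprod_congr fun v => ?_
  rw [tame_mul_left v a.ne_zero a'.ne_zero b.ne_zero, v.norm_mul]

theorem bdU_swap (hP : IsCurve P) (a b : (P178.kappa P)ˣ) :
    bdU P b a = (bdU P a b)⁻¹ := by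
  have := hP.finite_place
  ext
  rw [Units.val_inv_eq_inv_val]
  change P178.bd₂ P (closedPoint A) b a = (P178.bd₂ P (closedPoint A) a b)⁻¹
  rw [P178.bd₂, P178.bd₂, ← finprod_inv_distrib]
  refine finprod_congr fun v => ?_
  rw [tame_swap v a.ne_zero b.ne_zero, v.norm_inv]
  exact Bridge.tame_ne_zero v a.ne_zero b.ne_zero

theorem bdU_mul_right (hP : IsCurve P) (a b b' : (P178.kappa P)ˣ) :
    bdU P a (b * b') = bdU P a b * bdU P a b' := by
  rw [bdU_swap hP (b * b') a, bdU_mul_left hP, mul_inv, ← bdU_swap hP, ← bdU_swap hP]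

omit [IsNoetherianRing A] [Module.Finite (A ⧸ P.asIdeal) (Nrm P)] in
theorem bdU_steinberg (a b : (P178.kappa P)ˣ) (h : (a : P178.kappa P) + b = 1) :
    bdU P a b = 1 := by
  ext
  change P178.bd₂ P (closedPoint A) a b = 1
  rw [P178.bd₂, finprod_congr (g := fun _ => 1), finprod_one]
  intro v
  rw [tame_steinberg v a.ne_zero b.ne_zero h, v.norm_one]

/-- The residue map on `K₂`. -/
theorem exists_bdH (hP : IsCurve P) :
    ∃ H : MilnorK₂ (P178.kappa P) →+ Additive (P178.kappa (closedPoint A))ˣ,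
      ∀ a b, H (sym a b) = Additive.ofMul (bdU P a b) := by
  let g : FreeAbelianGroup ((P178.kappa P)ˣ × (P178.kappa P)ˣ) →+
      Additive (P178.kappa (closedPoint A))ˣ :=
    FreeAbelianGroup.lift fun x => Additive.ofMul (bdU P x.1 x.2)
  have hg : ∀ a b, g (.of (a, b)) = Additive.ofMul (bdU P a b) :=
    fun a b => FreeAbelianGroup.lift_apply_of _ _
  refine ⟨QuotientAddGroup.lift (K₂Rel (P178.kappa P)) g ?_, fun a b => hg a b⟩
  rw [K₂Rel, AddSubgroup.closure_le]
  rintro _ (⟨a, a', b, rfl⟩ | ⟨a, b, b', rfl⟩ | ⟨a, b, hab, rfl⟩)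
  · rw [SetLike.mem_coe, AddMonoidHom.mem_ker, map_sub, map_sub, hg, hg, hg, bdU_mul_left hP,
      sub_sub, ← ofMul_mul, sub_self]
  · rw [SetLike.mem_coe, AddMonoidHom.mem_ker, map_sub, map_sub, hg, hg, hg, bdU_mul_right hP,
      sub_sub, ← ofMul_mul, sub_self]
  · rw [SetLike.mem_coe, AddMonoidHom.mem_ker, hg, bdU_steinberg a b hab]
    rfl

end curve

end Vale.Agent.P178.All
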