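import Vale.Agent.P178.Residues

/-!
Milnor's group `K₂` of a field, and the residue map `K₃ → K₂` on symbols whose residues have a
norm which is computed by the projection formula.
-/

namespace Vale.Agent.P178.Gersten

open IsLocalRing

universe u

/-- The relations between the symbols `{a, b}` of a field: bilinearity, and the relation of
Steinberg. -/
def K₂Rel (F : Type u) [Field F] : AddSubgroup (FreeAbelianGroup (Fˣ × Fˣ)) :=
  AddSubgroup.closure {x |
    (∃ a a' b : Fˣ, x = .of (a * a', b) - .of (a, b) - .of (a', b)) ∨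
    (∃ a b b' : Fˣ, x = .of (a, b * b') - .of (a, b) - .of (a, b')) ∨
    ∃ a b : Fˣ, (a : F) + (b : F) = 1 ∧ x = .of (a, b)}

/-- The group `K₂` of a field `F`, written additively: the abelian group generated by the
symbols `{a, b}`, bilinear and with `{a, b} = 0` if `a + b = 1`. -/
def MilnorK₂ (F : Type u) [Field F] : Type u := FreeAbelianGroup (Fˣ × Fˣ) ⧸ K₂Rel F

instance instAddCommGroupMilnorK₂ (F : Type u) [Field F] : AddCommGroup (MilnorK₂ F) :=
  QuotientAddGroup.Quotient.addCommGroup (K₂Rel F)

/-- The symbol `{a, b}`. -/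
def sym {F : Type u} [Field F] (a b : Fˣ) : MilnorK₂ F :=
  QuotientAddGroup.mk' (K₂Rel F) (.of (a, b))

/-- `z` is the norm, along the extension `φ : K → F`, of the symbol `{x, y}` of `F`, of which one
entry is in `K`: the projection formula. -/
def IsNorm {K F : Type u} [Field K] [Field F] (φ : K →+* F) (x y : F) (z : MilnorK₂ K) : Prop :=
  (∃ a : Kˣ, φ a = x ∧ z = sym a (toUnit (norm φ y))) ∨
    (∃ b : Kˣ, φ b = y ∧ z = sym (toUnit (norm φ x)) b)

/-- The function `w` is the residue, on the primes of height `h`, of the symbol `{a, b, c}` of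
the residue field of `Q`, where `c` is a unit at all places: it is the sum over the places of
the norm of the symbol of the tame symbol of `a, b` and the residue of `c`, and these norms are
computed by the projection formula. -/
def IsBd₃ {A : Type u} [CommRing A] (Q : PrimeSpectrum A) (h : ℕ) (a b c : K₁ Q)
    (w : (P : Pt A h) → MilnorK₂ (kappa P.P)) : Prop :=
  ∀ P : Pt A h, ∃ z : Place (toKappa Q) (toKappa P.P) → MilnorK₂ (kappa P.P),
    (∀ v : Place (toKappa Q) (toKappa P.P), haveI := v.dvr
      ord v.V c.val = 0 ∧ IsNorm v.map (tame v.V a.val b.val) (res v.V c.val) (z v)) ∧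
    {v | z v ≠ 0}.Finite ∧ w P = ∑ᶠ v, z v

/-- The group generated by the residues, on the primes of height `h'`, of the symbols
`{a, b, c}` of the residue fields of the primes of height `h`. -/
noncomputable def Bd₃ (A : Type u) [CommRing A] (h h' : ℕ) :
    AddSubgroup ((P : Pt A h') → MilnorK₂ (kappa P.P)) :=
  AddSubgroup.closure {w | ∃ (Q : Pt A h) (a b c : K₁ Q.P), IsBd₃ Q.P h' a b c w}

open Classical in
/-- The function with value `z` at `P` and `0` at the other primes. -/
noncomputable def single₂ {A : Type u} [CommRing A] {h : ℕ} (P : Pt A h)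
    (z : MilnorK₂ (kappa P.P)) : (P : Pt A h) → MilnorK₂ (kappa P.P) := Pi.single P z

/-- Here `n + 1 = m` and `m + 1` is the height of the closed point. Exactness of the complex
in degree `m + 2` at the sum of the groups `K₂` of the residue fields of the primes of height
`m`: a sum of symbols whose boundary in `K₁` of the closed point is trivial is a sum of
residues of symbols of the residue fields of the primes of height `n`. Exactness of the complex
in degree `m + 3` at the group `K₂` of the closed point. -/
def K₂Exact (A : Type u) [CommRing A] [IsLocalRing A] (n m : ℕ) : Prop :=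
  (∀ (r : ℕ) (P : Fin r → Pt A m) (a b : (i : Fin r) → K₁ (P i).P),
    ∏ i, bd₂ (P i).P (closedPoint A) (a i) (b i) = 1 →
    ∑ i, single₂ (P i) (sym (a i) (b i)) ∈ Bd₃ A n m) ∧
  ∀ z : (P : Pt A (m + 1)) → MilnorK₂ (kappa P.P), z ∈ Bd₃ A m (m + 1)

/-- The image of a unit of `R`, as an element of `K₁`. -/
noncomputable def unitOf {A : Type u} [CommRing A] {P : PrimeSpectrum A} {R : Type u} [CommRing R]
    (j : R →+* kappa P) (w : Rˣ) : K₁ P := Units.map j w

/-- The prime `P` of height `c + 2` is the exact divisor of an element `t` of the residue field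
of a prime `Q` of height `c + 1`; each unit `w` of the ring `R` over the residue field of `P`
is the exact boundary of a symbol `{s, t}`, and for each second unit `w'` the symbol `{w, w'}`
at `P` is the exact boundary of a symbol `{s, t, s'}`. -/
def IsHit₂ (A : Type u) [CommRing A] (c : ℕ) (P : Pt A (c + 2)) (R : Type u) [CommRing R]
    (j : R →+* kappa P.P) : Prop :=
  ∃ (Q : Pt A (c + 1)) (t : K₁ Q.P), bd₁ Q.P P.P t = 1 ∧
    (∀ P' : Pt A (c + 2), P' ≠ P → bd₁ Q.P P'.P t = 0) ∧
    ∀ w : Rˣ, ∃ s : K₁ Q.P, bd₂ Q.P P.P s t = unitOf j w ∧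
      (∀ P' : Pt A (c + 2), P' ≠ P → bd₂ Q.P P'.P s t = 1) ∧
      ∀ w' : Rˣ, ∃ s' : K₁ Q.P, IsBd₃ Q.P (c + 2) s t s'
        (single₂ P (sym (unitOf j w) (unitOf j w')))

end Vale.Agent.P178.Gersten
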