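import Vale.Agent.P178.All.Final

/-!
The group `K₂` of the closed point.
-/

namespace Vale.Agent.P178.All

open IsLocalRing Vale.Agent.P178 Vale.Agent.P178.Gersten

universe u

noncomputable section

variable {A : Type u} [CommRing A] [IsRegularLocalRing A] {n : ℕ}

/-- Each element of `K₂` of the closed point is a sum of boundaries of symbols of a curve. -/
theorem closed_mem (hdim : ringKrullDim A = n + 2)
    (z : (P : Pt A (n + 2)) → MilnorK₂ (P178.kappa P.P)) : z ∈ bdG A (n + 1) (n + 2) := by
  classical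
  obtain ⟨C⟩ := exists_regCurve hdim
  have := C.dvr
  let pt : Pt A (n + 2) := ⟨closedPoint A, height_maximalIdeal hdim⟩
  have hpt : ∀ P : Pt A (n + 2), P = pt := by
    intro P
    have h1 : P.P = closedPoint A := by
      apply PrimeSpectrum.ext
      by_contra hne
      have hlt : P.P.asIdeal < maximalIdeal A :=
        lt_of_le_of_ne (le_maximalIdeal P.P.2.ne_top) hne
      have h2 := Ideal.height_add_one_le_of_lt_of_isPrime hlt
      rw [P.height, height_maximalIdeal hdim] at h2
      have h3 : n + 2 + 1 ≤ n + 2 := by exact_mod_cast h2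
      omega
    cases P
    cases h1
    rfl
  have hz : z = Pi.single pt (z pt) := by
    funext P
    rw [hpt P, Pi.single_eq_same]
  rw [hz]
  generalize z pt = y
  let G : AddSubgroup (MilnorK₂ (P178.kappa pt.P)) :=
    (bdG A (n + 1) (n + 2)).comap
      (AddMonoidHom.single (fun P : Pt A (n + 2) => MilnorK₂ (P178.kappa P.P)) pt)
  refine mem_of_sym_mem G (fun a b => ?_) y
  change (Pi.single pt (sym a b) : (P : Pt A (n + 2)) → MilnorK₂ (P178.kappa P.P)) ∈
    bdG A (n + 1) (n + 2)
  have hlift : ∀ a : (P178.kappa (closedPoint A))ˣ, ∃ s : A ⧸ C.P₀.P.asIdeal, IsUnit s ∧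
      C.ρ s = a := by
    intro a
    obtain ⟨s, hs⟩ := C.surj (a : P178.kappa (closedPoint A))
    refine ⟨s, ?_, hs⟩
    by_contra h
    have h1 : s ∈ maximalIdeal (A ⧸ C.P₀.P.asIdeal) := h
    rw [C.ht, ← C.ker, RingHom.mem_ker, hs] at h1
    exact a.ne_zero h1
  obtain ⟨s, hs, hsa⟩ := hlift a
  obtain ⟨r, hr, hrb⟩ := hlift b
  refine mem_bdG C.P₀ (el _ s hs.ne_zero) C.τ (el _ r hr.ne_zero) _ fun P => ?_
  obtain rfl := hpt P
  rw [Pi.single_eq_same]
  have h1 := localAt_right C.P₀.P (closedPoint A) C.prime (by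
      rw [← C.ht]
      exact comap_eq_maximalIdeal (A := A) _) C.ρ (fun a => C.hρ a) C.ker (by
      intro y
      obtain ⟨r, rfl⟩ := C.surj y
      exact ⟨r, 1, by rw [map_one]; exact one_ne_zero, by rw [map_one, div_one]⟩)
    (b := s) (c := r) (x := a) hsa (fun q hq _ => notMem_of_isUnit hs q hq)
    (fun q hq _ => notMem_of_isUnit hr q hq)
  rw [Algebra.norm_self, MonoidHom.id_apply, hrb] at h1
  have h2 : toUnit (b : P178.kappa (closedPoint A)) = b := by
    ext
    rw [Bridge.toUnit_val]
    exact b.ne_zero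
  rw [h2] at h1
  exact h1

end

end Vale.Agent.P178.All
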