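import Vale.Agent.P178.All.Chain

/-!
A finite regular domain over a regular local ring is a local complete intersection.
-/

namespace Vale.Agent.P178.All

open Ideal IsLocalRing Vale.Agent.P178

universe u

theorem lci_of_regular
    (A : Type u) [CommRing A] [IsRegularLocalRing A]
    (R : Type u) [CommRing R] [IsDomain R] [Algebra A R] [Module.Finite A R]
    (P : Ideal A) (hPR : RingHom.ker (algebraMap A R) = P)
    (c : ℕ) (hht : P.height = c)
    (hreg : ∀ (M : Ideal R) [M.IsMaximal], IsRegularLocalRing (Localization.AtPrime M))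
    (m : ℕ) (φ : MvPolynomial (Fin m) A →ₐ[A] R) (hφ : Function.Surjective φ)
    (n : Ideal (MvPolynomial (Fin m) A)) (hnm : n.IsMaximal) (hIn : RingHom.ker φ ≤ n) :
    ∃ g : Fin (m + c) → MvPolynomial (Fin m) A, (∀ i, g i ∈ RingHom.ker φ) ∧
      ∀ x ∈ RingHom.ker φ, ∃ s, s ∉ n ∧ s * x ∈ span (Set.range g) := by
  classical
  have hRnoeth : IsNoetherianRing R := IsNoetherianRing.of_finite A R
  let T := MvPolynomial (Fin m) A
  have hφC : ∀ a, φ (MvPolynomial.C a) = algebraMap A R a := fun a => φ.commutes a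
  let I : Ideal T := RingHom.ker φ
  have hIp : I.IsPrime := RingHom.ker_isPrime _
  have hPmem : ∀ a : A, algebraMap A R a = 0 ↔ a ∈ P := by
    intro a; rw [← hPR]; rfl
  have hIP : I.comap (algebraMap A T) = P := by
    ext a
    rw [← hPmem]
    change φ (MvPolynomial.C a) = 0 ↔ _
    rw [hφC]
  have hint : ∀ (q : Ideal T), I ≤ q → ∀ f : T, IsIntegral A (Ideal.Quotient.mk q f) := by
    intro q hq f
    obtain ⟨p, hp, hpe⟩ := (Algebra.IsIntegral.isIntegral (R := A) (φ f))
    refine ⟨p, hp, ?_⟩
    have h1 : Polynomial.aeval f p ∈ I := by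
      change φ (Polynomial.aeval f p) = 0
      rw [← Polynomial.aeval_algHom_apply]
      exact hpe
    have h2 : Ideal.Quotient.mk q (Polynomial.aeval f p) = 0 :=
      Ideal.Quotient.eq_zero_iff_mem.mpr (hq h1)
    rw [← h2, Polynomial.eval₂_eq_sum_range, Polynomial.aeval_eq_sum_range, map_sum]
    refine Finset.sum_congr rfl fun i _ => ?_
    rw [Algebra.smul_def, map_mul, map_pow]
    rfl
  let M : Ideal R := n.map φ
  have hMn : M.comap φ = n := by
    rw [Ideal.comap_map_of_surjective φ hφ]
    exact sup_eq_left.mpr hIn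
  have hM : M.IsMaximal := Ideal.IsMaximal.map_of_surjective_of_ker_le hφ hIn
  have hnA : n.comap (algebraMap A T) = maximalIdeal A := by
    have h1 : (M.comap (algebraMap A R)).IsMaximal :=
      Ideal.isMaximal_comap_of_isIntegral_of_isMaximal M
    have h2 : n.comap (algebraMap A T) = M.comap (algebraMap A R) := by
      rw [← hMn]
      ext a
      change φ (MvPolynomial.C a) ∈ M ↔ _
      rw [hφC]; rfl
    rw [h2]
    exact IsLocalRing.eq_maximalIdeal h1
  -- dimensions
  obtain ⟨d, hd⟩ : ∃ d : ℕ, (maximalIdeal A).height = d := by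
    have h := (maximalIdeal A).height_ne_top (maximalIdeal.isMaximal A).ne_top
    obtain ⟨d, hd⟩ := ENat.ne_top_iff_exists.mp h
    exact ⟨d, hd.symm⟩
  obtain ⟨ρ, hρ⟩ : ∃ ρ : ℕ, M.height = ρ := by
    have h := M.height_ne_top hM.ne_top
    obtain ⟨d, hd⟩ := ENat.ne_top_iff_exists.mp h
    exact ⟨d, hd.symm⟩
  have hIht : I.height = ((m + c : ℕ) : ℕ∞) := by
    rw [height_mvPolynomial_of_integral m I (hint I le_rfl), hIP, hht, ← Nat.cast_add,
      Nat.add_comm]
  have hnht : n.height = ((m + d : ℕ) : ℕ∞) := by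
    rw [height_mvPolynomial m n (hint n hIn), hnA, hd, ← Nat.cast_add, Nat.add_comm]
  have hsum : I.height + M.height ≤ n.height := by
    have h1 := height_add_height_map_le I n hIn
    let e : (T ⧸ I) ≃+* R := RingHom.quotientKerEquivOfSurjective (f := (φ : T →+* R)) hφ
    have h2 : (n.map (Ideal.Quotient.mk I)) = M.comap e := by
      ext x
      obtain ⟨y, rfl⟩ := Ideal.Quotient.mk_surjective x
      have h3 : Ideal.Quotient.mk I y ∈ n.map (Ideal.Quotient.mk I) ↔ y ∈ n := by
        rw [← Ideal.mem_comap, Ideal.comap_map_of_surjective _ Ideal.Quotient.mk_surjective,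
          ← RingHom.ker_eq_comap_bot, Ideal.mk_ker]
        have h4 : n ⊔ I = n := sup_eq_left.mpr hIn
        rw [h4]
      rw [h3, ← hMn]
      rfl
    have h3 : (n.map (Ideal.Quotient.mk I)).height = M.height := by
      rw [h2]
      exact e.height_comap M
    rw [h3] at h1
    exact h1
  rw [hIht, hρ, hnht] at hsum
  have hsum' : m + c + ρ ≤ m + d := by exact_mod_cast hsum
  obtain ⟨r, hr⟩ : ∃ r, r + ρ = m + d := ⟨m + d - ρ, by omega⟩
  -- generators of the maximal ideals
  have hregn := mvPolynomial_localization_regular m n hnA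
  obtain ⟨a, ha, hna⟩ := exists_gens_of_regular n hregn (r + ρ) (by rw [hnht, hr])
  obtain ⟨b', hb', hMb'⟩ := exists_gens_of_regular M (hreg M) ρ hρ
  choose b hb using fun k => hφ (b' k)
  obtain ⟨g, hgI, z, hz, hgz⟩ := exists_gens_in_ideal n I hIn r ρ a ha hna b (fun k => by
      rw [← hMn]
      change φ (b k) ∈ M
      rw [hb]; exact hb' k) (by
    have h1 : n.map φ = M := rfl
    have h2 : (span (Set.range b)).map φ = span (Set.range b') := by
      rw [Ideal.map_span, ← Set.range_comp]
      have : φ ∘ b = b' := funext hb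
      rw [this]
    have h3 : M ≤ (span (Set.range b) ⊔ n ^ 2).map φ := by
      rw [Ideal.map_sup, h2, Ideal.map_pow, h1]
      exact hMb'
    have h4 : n ≤ ((span (Set.range b) ⊔ n ^ 2).map φ).comap φ := by
      conv_lhs => rw [← hMn]
      exact Ideal.comap_mono h3
    rw [Ideal.comap_map_of_surjective φ hφ] at h4
    refine h4.trans (sup_le (sup_le ?_ ?_) ?_)
    · exact le_sup_left.trans le_sup_left
    · exact le_sup_right
    · intro x hx
      exact Submodule.mem_sup_left (Submodule.mem_sup_right hx))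
  -- the regular quotient
  let B := Localization.AtPrime n
  have hgIle : span (Set.range g) ≤ I := by
    rw [Ideal.span_le]; rintro _ ⟨k, rfl⟩; exact hgI k
  have hzn : span (Set.range z) ≤ n := by
    rw [Ideal.span_le]; rintro _ ⟨k, rfl⟩; exact hz k
  have h1 := maximalIdeal_eq_of_le_sup_sq n (span (Set.range g) ⊔ span (Set.range z))
    (sup_le (hgIle.trans hIn) hzn) hgz
  rw [Ideal.map_sup, Ideal.map_span, Ideal.map_span, ← Set.range_comp, ← Set.range_comp] at h1
  have h2 : ((r + ρ : ℕ) : WithBot ℕ∞) ≤ ringKrullDim B := by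
    rw [IsLocalization.AtPrime.ringKrullDim_eq_height n B, hnht, hr]
    rfl
  obtain ⟨h3, -⟩ := regular_quotient r ρ _ _ h1 h2
  have h4 := le_height_span_of_regular r ρ _ _ h1 h2
  have hdomq : IsDomain (B ⧸ span (Set.range (algebraMap T B ∘ g))) :=
    regular_isDomain (B ⧸ span (Set.range (algebraMap T B ∘ g)))
  have hgp : (span (Set.range (algebraMap T B ∘ g))).IsPrime :=
    (Ideal.Quotient.isDomain_iff_prime _).mp hdomq
  have hgmap : (span (Set.range g)).map (algebraMap T B) =
      span (Set.range (algebraMap T B ∘ g)) := by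
    rw [Ideal.map_span, ← Set.range_comp]
  have hdisj : Disjoint (n.primeCompl : Set T) (I : Set T) :=
    Set.disjoint_left.mpr fun x hx hx' => hx (hIn hx')
  have hIBp : (I.map (algebraMap T B)).IsPrime :=
    IsLocalization.isPrime_of_isPrime_disjoint n.primeCompl _ I hIp hdisj
  have hIBht : (I.map (algebraMap T B)).height = ((m + c : ℕ) : ℕ∞) := by
    rw [IsLocalization.height_map_of_disjoint n.primeCompl I hdisj, hIht]
  have hle : span (Set.range (algebraMap T B ∘ g)) ≤ I.map (algebraMap T B) := by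
    rw [← hgmap]
    exact Ideal.map_mono hgIle
  have heq : span (Set.range (algebraMap T B ∘ g)) = I.map (algebraMap T B) := by
    by_contra hne
    have h5 := Ideal.height_add_one_le_of_lt_of_isPrime (lt_of_le_of_ne hle hne)
    rw [hIBht] at h5
    have h6 : ((r : ℕ∞)) + 1 ≤ ((m + c : ℕ) : ℕ∞) := le_trans (by gcongr) h5
    have h7 : r + 1 ≤ m + c := by exact_mod_cast h6
    omega
  have hrc : r = m + c := by
    rw [heq, hIBht] at h4
    have h5 : r ≤ m + c := by exact_mod_cast h4
    omega
  subst hrc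
  refine ⟨g, hgI, fun x hx => ?_⟩
  have h5 : algebraMap T B x ∈ (span (Set.range g)).map (algebraMap T B) := by
    rw [hgmap, heq]
    exact Ideal.mem_map_of_mem _ hx
  rw [IsLocalization.algebraMap_mem_map_algebraMap_iff n.primeCompl] at h5
  obtain ⟨s, hs, hsx⟩ := h5
  exact ⟨s, hs, hsx⟩

end Vale.Agent.P178.All
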