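import Vale.Agent.P178.All.Cover

/-!
The class of a prime with a finite birational local complete intersection over it, and the
units of that ring, are boundaries.
-/

namespace Vale.Agent.P178.All

open Ideal IsLocalRing Vale.Agent.P178

universe u

variable {A : Type u} [CommRing A]

/-- Elements of a ring between `A / P` and its fraction field are fractions. -/
theorem exists_frac_of_subring (P : PrimeSpectrum A) (R : Type u) [CommRing R] [Algebra A R]
    [Algebra R (kappa P)] [IsScalarTower A R (kappa P)]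
    (hinj : Function.Injective (algebraMap R (kappa P))) (b : R) :
    ∃ s a : A, algebraMap A R s ≠ 0 ∧ algebraMap A R s * b = algebraMap A R a := by
  obtain ⟨a, s, hs, h⟩ := IsFractionRing.div_surjective (A := A ⧸ P.asIdeal)
    (algebraMap R (kappa P) b)
  obtain ⟨a, rfl⟩ := Ideal.Quotient.mk_surjective a
  obtain ⟨s, rfl⟩ := Ideal.Quotient.mk_surjective s
  have e : ∀ x : A, algebraMap R (kappa P) (algebraMap A R x) =
      algebraMap (A ⧸ P.asIdeal) (kappa P) (Ideal.Quotient.mk _ x) := by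
    intro x
    rw [← IsScalarTower.algebraMap_apply A R (kappa P)]
    rfl
  have hs0 : algebraMap (A ⧸ P.asIdeal) (kappa P) (Ideal.Quotient.mk _ s) ≠ 0 := by
    rw [Ne, IsFractionRing.to_map_eq_zero_iff]
    exact nonZeroDivisors.ne_zero hs
  refine ⟨s, a, ?_, ?_⟩
  · intro h0
    apply hs0
    rw [← e, h0, map_zero]
  · apply hinj
    rw [map_mul, e, e, ← h]
    field_simp

theorem relation_lci [IsLocalRing A] [IsNoetherianRing A] {t : ℕ} (P : HtPrime A (t + 2))
    (hPm : P.1.asIdeal ≠ maximalIdeal A)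
    (R : Type u) [CommRing R] [IsDomain R] [Algebra A R] [Module.Finite A R]
    [Algebra R (kappa P.1)] [IsScalarTower A R (kappa P.1)] [IsFractionRing R (kappa P.1)]
    (m : ℕ) (φ : MvPolynomial (Fin m) A →ₐ[A] R) (hφ : Function.Surjective φ)
    (hlci : ∀ n : Ideal (MvPolynomial (Fin m) A), n.IsMaximal → RingHom.ker φ ≤ n →
      ∃ g : Fin (m + (t + 1) + 1) → MvPolynomial (Fin m) A, (∀ i, g i ∈ RingHom.ker φ) ∧
        ∀ x ∈ RingHom.ker φ, ∃ s, s ∉ n ∧ s * x ∈ span (Set.range g)) :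
    ∃ (Q : HtPrime A (t + 1)) (b : (kappa Q.1)ˣ),
      bd₁ Q.1 P.1 b = 1 ∧
      (∀ P' : HtPrime A (t + 2), P' ≠ P → bd₁ Q.1 P'.1 b = 0) ∧
      ∀ w : Rˣ, ∃ a : (kappa Q.1)ˣ,
        bd₂ Q.1 P.1 a b = algebraMap R (kappa P.1) w ∧
        ∀ P' : HtPrime A (t + 2), P' ≠ P → bd₂ Q.1 P'.1 a b = 1 := by
  have hinj : Function.Injective (algebraMap R (kappa P.1)) :=
    IsFractionRing.injective R (kappa P.1)
  have hPR : RingHom.ker (algebraMap A R) = P.1.asIdeal := by
    ext x
    rw [RingHom.mem_ker, ← (map_eq_zero_iff _ hinj),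
      ← IsScalarTower.algebraMap_apply A R (kappa P.1)]
    have h1 : algebraMap A (kappa P.1) x =
        algebraMap (A ⧸ P.1.asIdeal) (kappa P.1) (Ideal.Quotient.mk _ x) := rfl
    rw [h1, IsFractionRing.to_map_eq_zero_iff, Ideal.Quotient.eq_zero_iff_mem]
  obtain ⟨E, _, _, _, _, ψ, g, hψ, hg, hker, hmaxE, hbirE, hht⟩ :=
    exists_lci_cover A R P.1.asIdeal hPR hPm (exists_frac_of_subring P.1 R hinj) t P.2 m φ hφ
      hlci
  have hnoeth : IsNoetherianRing E := IsNoetherianRing.of_finite A E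
  obtain ⟨Q, hQ⟩ : ∃ Q : HtPrime A (t + 1), RingHom.ker (algebraMap A E) = Q.1.asIdeal :=
    ⟨⟨⟨RingHom.ker (algebraMap A E), RingHom.ker_isPrime _⟩, hht⟩, rfl⟩
  have hneE : ∀ s : A, algebraMap A R s ≠ 0 → algebraMap A E s ≠ 0 := by
    intro s hs h0
    apply hs
    rw [← ψ.commutes, h0, map_zero]
  obtain ⟨_, _, _⟩ := exists_model Q.1 E hQ (fun e => by
    obtain ⟨s, a, hs, hsa⟩ := hbirE e
    exact ⟨s, a, hneE s hs, hsa⟩)
  have hcomap : (Ideal.span {g}).comap (algebraMap A E) = P.1.asIdeal := by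
    rw [← hker, ← hPR]
    ext x
    rw [Ideal.mem_comap, RingHom.mem_ker, RingHom.mem_ker, AlgHom.commutes]
  have hgq : ∀ P' : HtPrime A (t + 2), P' ≠ P → ∀ q : Ideal E, q.IsPrime →
      q.comap (algebraMap A E) = P'.1.asIdeal → g ∉ q := by
    intro P' hP' q hq hqc hgq
    have hle : P.1.asIdeal ≤ P'.1.asIdeal := by
      rw [← hcomap, ← hqc]
      exact Ideal.comap_mono ((Ideal.span_singleton_le_iff_mem _).2 hgq)
    have hlt : P.1.asIdeal < P'.1.asIdeal := lt_of_le_of_ne hle fun h1 =>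
      hP' (Subtype.ext (PrimeSpectrum.ext h1.symm))
    have h1 := Ideal.height_add_one_le_of_lt_of_isPrime hlt
    rw [P.2, P'.2] at h1
    have h2 : t + 2 + 1 ≤ t + 2 := by exact_mod_cast h1
    omega
  let θ : E →+* kappa P.1 := (algebraMap R (kappa P.1)).comp (ψ : E →+* R)
  have hθA : ∀ x : A, θ (algebraMap A E x) =
      algebraMap (kappa P.1) (kappa P.1) (algebraMap A (kappa P.1) x) := by
    intro x
    change algebraMap R (kappa P.1) (ψ (algebraMap A E x)) = _
    rw [AlgHom.commutes, ← IsScalarTower.algebraMap_apply A R (kappa P.1)]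
    rfl
  have hθker : RingHom.ker θ = RingHom.ker ψ := by
    ext x
    rw [RingHom.mem_ker, RingHom.mem_ker]
    change algebraMap R (kappa P.1) (ψ x) = 0 ↔ _
    rw [map_eq_zero_iff _ hinj]
  have hθfrac : ∀ y : kappa P.1, ∃ r s : E, θ s ≠ 0 ∧ y = θ r / θ s := by
    intro y
    obtain ⟨a, b, hb, rfl⟩ := IsFractionRing.div_surjective (A := R) y
    obtain ⟨r, rfl⟩ := hψ a
    obtain ⟨s, rfl⟩ := hψ b
    refine ⟨r, s, ?_, rfl⟩
    change algebraMap R (kappa P.1) (ψ s) ≠ 0
    rw [Ne, map_eq_zero_iff _ hinj]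
    exact nonZeroDivisors.ne_zero hb
  let b : (kappa Q.1)ˣ := Units.mk0 (algebraMap E (kappa Q.1) g) (by
    rw [Ne, IsFractionRing.to_map_eq_zero_iff]; exact hg.ne_zero)
  refine ⟨Q, b, ?_, ?_, ?_⟩
  · have h1 := bd₁_prime Q.1 P.1 hg hcomap θ hθA (hθker.trans hker) hθfrac
    rw [Module.finrank_self, Nat.cast_one] at h1
    exact h1
  · intro P' hP'
    exact bd₁_eq_zero Q.1 P'.1 (hgq P' hP')
  · intro w
    obtain ⟨e, he⟩ := hψ (w : R)
    obtain ⟨e', he'⟩ := hψ ((w⁻¹ : Rˣ) : R)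
    have heu : ∀ q : Ideal E, q.IsPrime → e ∉ q := by
      intro q hq heq
      obtain ⟨M, hM, hqM⟩ := Ideal.exists_le_maximal q hq.ne_top
      have h1 : e * e' - 1 ∈ RingHom.ker ψ := by
        rw [RingHom.mem_ker, map_sub, map_mul, he, he', Units.mul_inv, map_one, sub_self]
      have h2 : (1 : E) ∈ M := by
        have h3 := sub_mem (M.mul_mem_right e' (hqM heq)) (hmaxE M hM h1)
        rwa [sub_sub_cancel] at h3
      exact hM.ne_top ((Ideal.eq_top_iff_one _).2 h2)
    have he0 : e ≠ 0 := fun h => heu ⊥ Ideal.isPrime_bot (by rw [h]; exact zero_mem _)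
    refine ⟨Units.mk0 (algebraMap E (kappa Q.1) e) (by
      rw [Ne, IsFractionRing.to_map_eq_zero_iff]; exact he0), ?_, ?_⟩
    · have h1 := bd₂_right Q.1 P.1 hg hcomap θ hθA (hθker.trans hker) hθfrac (b := e)
        (fun q hq _ => heu q hq)
      rw [Algebra.norm_self] at h1
      have h2 : θ e = algebraMap R (kappa P.1) w := by
        change algebraMap R (kappa P.1) (ψ e) = _
        rw [he]
      rw [h2] at h1
      exact h1
    · intro P' hP'
      exact bd₂_eq_one Q.1 P'.1 (fun q hq _ => heu q hq) (hgq P' hP')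

end Vale.Agent.P178.All
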