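import Vale.Agent.P178.All.Defs
import Vale.Agent.P178.All.Rel
import Vale.Agent.P178.All.Reg

/-!
Primes with a finite birational regular or locally complete intersection ring over them, in
every codimension.
-/

namespace Vale.Agent.P178.All

open Ideal IsLocalRing Vale.Agent.P178

universe u

/-- Generators of a localized ideal can be taken in the ideal. -/
theorem exists_gens_of_map {T : Type*} [CommRing T] (n I : Ideal T) [n.IsPrime] [hI : I.IsPrime]
    (hIn : I ≤ n) {k : ℕ} (g : Fin k → Localization.AtPrime n)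
    (hg : I.map (algebraMap T (Localization.AtPrime n)) = span (Set.range g)) :
    ∃ a : Fin k → T, (∀ i, a i ∈ I) ∧ ∀ x ∈ I, ∃ s, s ∉ n ∧ s * x ∈ span (Set.range a) := by
  let B := Localization.AtPrime n
  have hdisj : Disjoint (n.primeCompl : Set T) (I : Set T) :=
    Set.disjoint_left.mpr fun x hx hx' => hx (hIn hx')
  have hcomap : (I.map (algebraMap T B)).comap (algebraMap T B) = I :=
    IsLocalization.under_map_of_isPrime_disjoint n.primeCompl _ hI hdisj
  choose a u hau using fun i : Fin k => IsLocalization.exists_mk'_eq n.primeCompl (g i)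
  have h1 : ∀ i, algebraMap T B (a i) = g i * algebraMap T B (u i) := by
    intro i
    rw [← hau i, IsLocalization.mk'_spec]
  have haI : ∀ i, a i ∈ I := by
    intro i
    rw [← hcomap, Ideal.mem_comap, h1]
    refine Ideal.mul_mem_right _ _ ?_
    rw [hg]
    exact Ideal.subset_span ⟨i, rfl⟩
  refine ⟨a, haI, fun x hx => ?_⟩
  have h2 : I.map (algebraMap T B) ≤ (span (Set.range a)).map (algebraMap T B) := by
    rw [hg, Ideal.span_le]
    rintro _ ⟨i, rfl⟩
    have h3 : algebraMap T B (a i) ∈ (span (Set.range a)).map (algebraMap T B) :=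
      Ideal.mem_map_of_mem _ (Ideal.subset_span ⟨i, rfl⟩)
    rw [h1] at h3
    have hu : IsUnit (algebraMap T B (u i)) := IsLocalization.map_units B (u i)
    rw [mul_comm] at h3
    exact (Ideal.unit_mul_mem_iff_mem _ hu).1 h3
  have h3 := h2 (Ideal.mem_map_of_mem _ hx)
  rw [IsLocalization.algebraMap_mem_map_algebraMap_iff n.primeCompl] at h3
  obtain ⟨s, hs, hsx⟩ := h3
  exact ⟨s, hs, hsx⟩

open Gersten in
theorem all_codim (A : Type u) [CommRing A] [IsRegularLocalRing A] (c : ℕ) (P : Pt A (c + 2))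
    (hP : P.P ≠ closedPoint A)
    (R : Type u) [CommRing R] [Algebra A R] [Module.Finite A R] (j : R →+* Gersten.kappa P.P)
    (hj : Function.Injective j) (hjA : ∀ a : A, j (algebraMap A R a) = Gersten.toKappa P.P a)
    (hR : IsRegularRing R ∨ IsLci A R (c + 2)) : IsHit A c P R j := by
  let P₁ : HtPrime A (c + 2) := ⟨P.P, P.height⟩
  let _ : Algebra R (P178.kappa P₁.1) := RingHom.toAlgebra (S := P178.kappa P₁.1) j
  have hinj : Function.Injective (algebraMap R (P178.kappa P₁.1)) := hj
  have hRdom : IsDomain R := hinj.isDomain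
  have htower : IsScalarTower A R (P178.kappa P₁.1) :=
    IsScalarTower.of_algebraMap_eq fun a => (hjA a).symm
  have hfaith : FaithfulSMul R (P178.kappa P₁.1) :=
    (faithfulSMul_iff_algebraMap_injective _ _).2 hinj
  have hfrac : IsFractionRing R (P178.kappa P₁.1) := IsFractionRing.of_field _ _ (by
    intro z
    obtain ⟨x, y, hy, hxy⟩ := IsFractionRing.div_surjective (A := A ⧸ P.P.asIdeal) z
    obtain ⟨x, rfl⟩ := Ideal.Quotient.mk_surjective x
    obtain ⟨y, rfl⟩ := Ideal.Quotient.mk_surjective y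
    refine ⟨algebraMap A R x, algebraMap A R y, ?_⟩
    rw [← IsScalarTower.algebraMap_apply A R (P178.kappa P₁.1),
      ← IsScalarTower.algebraMap_apply A R (P178.kappa P₁.1)]
    exact hxy.symm)
  have hPm : P₁.1.asIdeal ≠ maximalIdeal A := by
    intro h
    exact hP (PrimeSpectrum.ext h)
  have hPR : RingHom.ker (algebraMap A R) = P₁.1.asIdeal := by
    ext x
    rw [RingHom.mem_ker, ← (map_eq_zero_iff _ hinj),
      ← IsScalarTower.algebraMap_apply A R (P178.kappa P₁.1)]
    have h1 : algebraMap A (P178.kappa P₁.1) x =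
        algebraMap (A ⧸ P₁.1.asIdeal) (P178.kappa P₁.1) (Ideal.Quotient.mk _ x) := rfl
    rw [h1, IsFractionRing.to_map_eq_zero_iff, Ideal.Quotient.eq_zero_iff_mem]
  obtain ⟨m, φ, hφ, hlci⟩ : ∃ (m : ℕ) (φ : MvPolynomial (Fin m) A →ₐ[A] R),
      Function.Surjective φ ∧ ∀ n : Ideal (MvPolynomial (Fin m) A), n.IsMaximal →
        RingHom.ker φ ≤ n → ∃ g : Fin (m + (c + 1) + 1) → MvPolynomial (Fin m) A,
          (∀ i, g i ∈ RingHom.ker φ) ∧
          ∀ x ∈ RingHom.ker φ, ∃ s, s ∉ n ∧ s * x ∈ span (Set.range g) := by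
    rcases hR with hR | ⟨m, φ, hφ, h⟩
    · obtain ⟨m, y, hy⟩ := Module.Finite.exists_fin (R := A) (M := R)
      let φ : MvPolynomial (Fin m) A →ₐ[A] R := MvPolynomial.aeval y
      have hφ : Function.Surjective φ := by
        intro c
        have hc : c ∈ Submodule.span A (Set.range y) := by rw [hy]; trivial
        obtain ⟨w, hw⟩ := (Submodule.mem_span_range_iff_exists_fun A).mp hc
        refine ⟨∑ j, MvPolynomial.C (w j) * MvPolynomial.X j, ?_⟩
        rw [map_sum, ← hw]
        refine Finset.sum_congr rfl fun j _ => ?_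
        rw [map_mul]
        have h1 : φ (MvPolynomial.C (w j)) = algebraMap A R (w j) := MvPolynomial.aeval_C _ _
        have h2 : φ (MvPolynomial.X j) = y j := MvPolynomial.aeval_X _ _
        rw [h1, h2, Algebra.smul_def]
      refine ⟨m, φ, hφ, fun n hn hIn => ?_⟩
      exact lci_of_regular A R P₁.1.asIdeal hPR (c + 2) P₁.2
        (fun M hM => IsRegularRing.isRegularLocalRing_localization M) m φ hφ n hn hIn
    · refine ⟨m, φ, hφ, fun n hn hIn => ?_⟩
      obtain ⟨g, hg⟩ := h n hIn
      have hIp : (RingHom.ker φ).IsPrime := RingHom.ker_isPrime _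
      exact exists_gens_of_map n (RingHom.ker φ) hIn g hg
  obtain ⟨Q, b, h1, h2, h3⟩ := relation_lci P₁ hPm R m φ hφ hlci
  refine ⟨⟨Q.1, Q.2⟩, b, ?_, ?_, ?_⟩
  · exact (Bridge.gbd₁_eq Q.1 P.P b).trans h1
  · intro P' hP'
    refine (Bridge.gbd₁_eq Q.1 P'.P b).trans (h2 ⟨P'.P, P'.height⟩ fun h => hP' ?_)
    have h4 : P'.P = P.P := congrArg Subtype.val h
    cases P'; cases P; cases h4; rfl
  · intro w
    obtain ⟨a, h4, h5⟩ := h3 w
    refine ⟨a, ?_, ?_⟩
    · refine Bridge.gbd₂_eq Q.1 P.P a b _ ?_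
      rw [h4]
      rfl
    · intro P' hP'
      refine Bridge.gbd₂_eq Q.1 P'.P a b 1 ((h5 ⟨P'.P, P'.height⟩ fun h => hP' ?_).trans ?_)
      · have h4 : P'.P = P.P := congrArg Subtype.val h
        cases P'; cases P; cases h4; rfl
      · rfl

end Vale.Agent.P178.All
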