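import Vale.Agent.P178.Bdl.B1

/-!
The norm of a finite free extension of a local ring and the norm of the residue extension.
-/

namespace Vale.Agent.P178.All

open IsLocalRing Module

section

variable {R S : Type*} [CommRing R] [CommRing S] [Algebra R S] [IsLocalRing R]
  [Module.Free R S] [Module.Finite R S]

attribute [local instance] Ideal.Quotient.field

theorem norm_quotient_mk (x : S) :
    Algebra.norm (R ⧸ maximalIdeal R)
      (Ideal.Quotient.mk ((maximalIdeal R).map (algebraMap R S)) x) =
      Ideal.Quotient.mk (maximalIdeal R) (Algebra.norm R x) := by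
  classical
  let ι := Module.Free.ChooseBasisIndex R S
  let b : Module.Basis ι R S := Module.Free.chooseBasis R S
  rw [Algebra.norm_eq_matrix_det b, Algebra.norm_eq_matrix_det (basisQuotient b), RingHom.map_det]
  congr 1
  ext i j
  simp only [Algebra.leftMulMatrix_apply, Algebra.coe_lmul_eq_mul, LinearMap.toMatrix_apply,
    basisQuotient_apply, LinearMap.mul_apply', RingHom.mapMatrix_apply, Matrix.map_apply,
    ← map_mul, basisQuotient_repr]

end

theorem norm_residue_eq {D L k F : Type*} [CommRing D] [IsLocalRing D] [CommRing L] [Algebra D L]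
    [Module.Free D L] [Module.Finite D L] [Field k] [CommRing F] [Algebra k F]
    (ψ₀ : D →+* k) (hψ₀ : Function.Surjective ψ₀) (hker₀ : RingHom.ker ψ₀ = maximalIdeal D)
    (f : L →+* F) (hf : Function.Surjective f)
    (hker : RingHom.ker f = (maximalIdeal D).map (algebraMap D L))
    (hc : ∀ d : D, f (algebraMap D L d) = algebraMap k F (ψ₀ d)) (l : L) :
    Algebra.norm k (f l) = ψ₀ (Algebra.norm D l) := by
  let e₁ : (D ⧸ maximalIdeal D) ≃+* k :=
    (Ideal.quotEquivOfEq hker₀.symm).trans (RingHom.quotientKerEquivOfSurjective hψ₀)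
  let e₂ : (L ⧸ (maximalIdeal D).map (algebraMap D L)) ≃+* F :=
    (Ideal.quotEquivOfEq hker.symm).trans (RingHom.quotientKerEquivOfSurjective hf)
  have he₁ : ∀ d, e₁ (Ideal.Quotient.mk _ d) = ψ₀ d := fun d => rfl
  have he₂ : ∀ d, e₂ (Ideal.Quotient.mk _ d) = f d := fun d => rfl
  have h := Algebra.norm_eq_of_equiv_equiv e₁ e₂ (by
    ext d
    change algebraMap k F (e₁ (Ideal.Quotient.mk _ d)) =
      e₂ (Ideal.Quotient.mk _ (algebraMap D L d))
    rw [he₁, he₂, hc]) (Ideal.Quotient.mk _ l)
  rw [norm_quotient_mk, he₂] at h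
  rw [← he₁, h]
  exact (e₁.apply_symm_apply _).symm

end Vale.Agent.P178.All
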