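import Vale.Agent.P178.All.Mem
import Vale.Agent.P178.All.Glue
import Vale.Agent.P178.All.NormRes
import Vale.Agent.P178.All.Hom
import Vale.Agent.P178.All.Gen

/-!
The relations in `K₂` of the curves which come from surfaces.
-/

namespace Vale.Agent.P178.All

open IsLocalRing Vale.Agent.P178 Vale.Agent.P178.Gersten

universe u

noncomputable section

/-- The group generated by the boundaries of symbols. -/
abbrev bdG (A : Type u) [CommRing A] (n m : ℕ) :
    AddSubgroup ((P : Pt A m) → MilnorK₂ (P178.kappa P.P)) := Bd₃ A n m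

section

variable {A : Type u} [CommRing A]

theorem mem_bdG {n m : ℕ} (Q : Pt A n) (a b c : (P178.kappa Q.P)ˣ)
    (w : (P : Pt A m) → MilnorK₂ (P178.kappa P.P))
    (h : ∀ P : Pt A m, LocalAt Q.P P.P (a : P178.kappa Q.P) (b : P178.kappa Q.P)
      (c : P178.kappa Q.P) (w P)) : w ∈ bdG A n m :=
  AddSubgroup.subset_closure ⟨Q, a, b, c, isBd₃_of_old Q.P m a b c w h⟩

theorem isUnit_of_map {E B : Type*} [CommRing E] [CommRing B] (ψ : E →+* B)
    (hψ : Function.Surjective ψ) (hmax : ∀ M : Ideal E, M.IsMaximal → RingHom.ker ψ ≤ M) {e : E}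
    (he : IsUnit (ψ e)) : IsUnit e := by
  refine isUnit_of_forall_notMem fun M hM heM => ?_
  obtain ⟨w, hw⟩ := he
  obtain ⟨e', he'⟩ := hψ ((w⁻¹ : Bˣ) : B)
  have h1 : e * e' - 1 ∈ RingHom.ker ψ := by
    rw [RingHom.mem_ker, map_sub, map_mul, he', ← hw, Units.mul_inv, map_one, sub_self]
  have h2 : (1 : E) ∈ M := by
    have h3 := sub_mem (M.mul_mem_right e' heM) (hmax M hM h1)
    rwa [sub_sub_cancel] at h3
  exact hM.ne_top ((Ideal.eq_top_iff_one _).2 h2)

theorem notMem_of_isUnit {E : Type*} [CommRing E] {e : E} (he : IsUnit e) (q : Ideal E)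
    (hq : q.IsPrime) : e ∉ q := fun h => hq.ne_top (Ideal.eq_top_of_isUnit_mem _ h he)

theorem eq_of_le' [IsLocalRing A] {n : ℕ} (hdim : ringKrullDim A = n + 2) {P P' : Pt A (n + 1)}
    (h : P.P.asIdeal ≤ P'.P.asIdeal) : P = P' := by
  have h1 := eq_of_le hdim (P := ⟨P.P, P.height⟩) (P' := ⟨P'.P, P'.height⟩) h
  have h2 : P.P = P'.P := congrArg Subtype.val h1
  cases P
  cases P'
  cases h2
  rfl

end

section relation

variable {A : Type u} [CommRing A] [IsRegularLocalRing A] {n : ℕ}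

/-- A unit of the normalization, as a unit of the residue field. -/
abbrev un {R : Type u} [CommRing R] (P : PrimeSpectrum A) [Algebra R (P178.kappa P)] (w : Rˣ) :
    (P178.kappa P)ˣ := Units.map (algebraMap R (P178.kappa P)).toMonoidHom w

open Classical in
/-- Symbols of units are boundaries. -/
theorem unit_mem (hn : 1 ≤ n) (hdim : ringKrullDim A = n + 2) (P : Pt A (n + 1))
    [Module.Finite (A ⧸ P.P.asIdeal) (Nrm P.P)] (w w' : (Nrm P.P)ˣ) :
    (Pi.single P (sym (un P.P w) (un P.P w')) : (P : Pt A (n + 1)) → MilnorK₂ (P178.kappa P.P)) ∈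
      bdG A n (n + 1) := by
  have hcurve : IsCurve P.P := isCurve_of_height hdim ⟨P.P, P.height⟩
  have := hcurve.isPrincipalIdealRing
  have := finite_nrm P.P
  have hfield : ¬ IsField (Nrm P.P) := by
    intro h
    exact hcurve.bot_not_isMaximal (Ring.isField_iff_maximal_bot.1 h)
  obtain ⟨E, _, _, _, _, ψ, g, hψ, hg, hker, hmaxE, huniq, hbirE, hht⟩ :=
    exists_surface_one A n hn hdim (B := Nrm P.P) hfield (exists_frac_nrm P.P)
  have hnoeth : IsNoetherianRing E := IsNoetherianRing.of_finite A E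
  obtain ⟨Q, hQ⟩ : ∃ Q : Pt A n, RingHom.ker (algebraMap A E) = Q.P.asIdeal :=
    ⟨⟨⟨RingHom.ker (algebraMap A E), RingHom.ker_isPrime _⟩, hht⟩, rfl⟩
  have hneE : ∀ s : A, algebraMap A (Nrm P.P) s ≠ 0 → algebraMap A E s ≠ 0 := by
    intro s hs h0
    apply hs
    rw [← ψ.commutes, h0, map_zero]
  obtain ⟨_, _, _⟩ := exists_model Q.P E hQ (fun e => by
    obtain ⟨s, a, hs, hsa⟩ := hbirE e
    exact ⟨s, a, hneE s hs, hsa⟩)
  obtain ⟨e, he⟩ := hψ (w : Nrm P.P)
  obtain ⟨e', he'⟩ := hψ (w' : Nrm P.P)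
  have hu : IsUnit e := isUnit_of_map (ψ : E →+* Nrm P.P) hψ hmaxE (by
    rw [show (ψ : E →+* Nrm P.P) e = w from he]; exact w.isUnit)
  have hu' : IsUnit e' := isUnit_of_map (ψ : E →+* Nrm P.P) hψ hmaxE (by
    rw [show (ψ : E →+* Nrm P.P) e' = w' from he']; exact w'.isUnit)
  have hcomap : (Ideal.span {g}).comap (algebraMap A E) = P.P.asIdeal := by
    rw [← hker]
    refine Eq.trans ?_ (ker_algebraMap_nrm P.P)
    ext x
    rw [Ideal.mem_comap, RingHom.mem_ker, RingHom.mem_ker, AlgHom.commutes]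
  have hgq : ∀ P' : Pt A (n + 1), P' ≠ P → ∀ q : Ideal E, q.IsPrime →
      q.comap (algebraMap A E) = P'.P.asIdeal → g ∉ q := by
    intro P' hP' q hq hqc hgq
    apply hP'
    refine (eq_of_le' hdim ?_).symm
    rw [← hcomap, ← hqc]
    exact Ideal.comap_mono ((Ideal.span_singleton_le_iff_mem _).2 hgq)
  refine mem_bdG Q (el _ e hu.ne_zero) (el _ g hg.ne_zero) (el _ e' hu'.ne_zero) _ fun P' => ?_
  by_cases hP' : P' = P
  · subst hP'
    rw [Pi.single_eq_same]
    have h1 := localAt_right Q.P P'.P hg hcomap (toKappa P'.P ψ) (toKappa_algebraMap P'.P ψ)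
      ((ker_toKappa P'.P ψ).trans hker) (toKappa_frac P'.P ψ hψ) (b := e) (c := e')
      (x := un P'.P w) (by
        rw [toKappa_apply, he]
        rfl) (fun q hq _ => notMem_of_isUnit hu q hq) (fun q hq _ => notMem_of_isUnit hu' q hq)
    rw [Algebra.norm_self, toKappa_apply, he', MonoidHom.id_apply] at h1
    have h2 : toUnit (algebraMap (Nrm P'.P) (P178.kappa P'.P) w') = un P'.P w' := by
      ext
      rw [Bridge.toUnit_val]
      · rfl
      · exact (un P'.P w').ne_zero
    rw [h2] at h1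
    exact h1
  · rw [Pi.single_eq_of_ne hP']
    exact localAt_zero Q.P P'.P (fun q hq _ => notMem_of_isUnit hu q hq) (hgq P' hP')
      (fun q hq _ => notMem_of_isUnit hu' q hq)

open Classical in
attribute [local instance] FractionRing.liftAlgebra in
/-- A symbol of a uniformizer and a unit, moved to the regular curve. -/
theorem glue_mem (hn : 1 ≤ n) (hdim : ringKrullDim A = n + 2) (P P₀ : Pt A (n + 1))
    (hne : P ≠ P₀) [Module.Finite (A ⧸ P.P.asIdeal) (Nrm P.P)]
    [IsDiscreteValuationRing (A ⧸ P₀.P.asIdeal)] {t : A ⧸ P₀.P.asIdeal} (ht0 : t ≠ 0)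
    (ht : maximalIdeal (A ⧸ P₀.P.asIdeal) = Ideal.span {t})
    (x : Nrm P.P) (hx : Prime x) (u : (Nrm P.P)ˣ)
    {F : Type u} [Field F] [Algebra A F] [Module.Finite A F] (f₁ : Nrm P.P →ₐ[A] F)
    (h₁ : Function.Surjective f₁) (hk₁ : RingHom.ker f₁ = Ideal.span {x})
    (hkerF : RingHom.ker (algebraMap A F) = maximalIdeal A)
    [Algebra (P178.kappa (closedPoint A)) F] [IsScalarTower A (P178.kappa (closedPoint A)) F]
    (ρ : A ⧸ P₀.P.asIdeal →+* P178.kappa (closedPoint A))
    (hρ : ∀ a : A, ρ (Ideal.Quotient.mk _ a) = algebraMap A (P178.kappa (closedPoint A)) a) :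
    ∃ (w : (Nrm P.P)ˣ) (y : (A ⧸ P₀.P.asIdeal)ˣ),
      ρ y = Algebra.norm (P178.kappa (closedPoint A)) (f₁ u) ∧
      (Pi.single P (sym (un P.P w * el _ x hx.ne_zero) (un P.P u)) -
        Pi.single P₀ (sym (el _ t ht0) (un P₀.P y)) :
          (P : Pt A (n + 1)) → MilnorK₂ (P178.kappa P.P)) ∈ bdG A n (n + 1) := by
  have hcurve : IsCurve P.P := isCurve_of_height hdim ⟨P.P, P.height⟩
  have := hcurve.isPrincipalIdealRing
  have hfin := finite_nrm P.P
  have hprime : (Ideal.span {x}).IsPrime := (Ideal.span_singleton_prime hx.ne_zero).2 hx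
  have hmax : (Ideal.span {x}).IsMaximal := hprime.isMaximal (by
    rw [Ne, Ideal.span_singleton_eq_bot]; exact hx.ne_zero)
  have hfinM : {M : Ideal (Nrm P.P) | M.IsMaximal}.Finite :=
    finite_maximalIdeals (A := A) (Nrm P.P)
  obtain ⟨L, _, _, _, _, _, _, _, _, f₂, hk₂, htL, h₂, -⟩ :=
    exists_glue_data P₀.P.asIdeal ht F hkerF
  have hLfin : Module.Finite A L := Module.Finite.trans (A ⧸ P₀.P.asIdeal) L
  have hLinj : Function.Injective (algebraMap (A ⧸ P₀.P.asIdeal) L) :=
    FaithfulSMul.algebraMap_injective _ _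
  have hkerL : RingHom.ker (algebraMap A L) = P₀.P.asIdeal := by
    ext a
    rw [RingHom.mem_ker, IsScalarTower.algebraMap_apply A (A ⧸ P₀.P.asIdeal) L,
      map_eq_zero_iff _ hLinj]
    exact Ideal.Quotient.eq_zero_iff_mem
  obtain ⟨E, _, _, _, _, ψ₁, ψ₂, g₁, g₂, hψ₁, hψ₂, hg₁, hg₂, hker₁, hker₂, hass₁, hass₂,
      huniq, hbirE, hht, hlift, hmaxE⟩ :=
    exists_surface_two_max A n hn hdim f₁ f₂ h₁ h₂ hk₁ hk₂ htL hmax hx.ne_zero
      (exists_frac_nrm P.P) (by
        intro hle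
        rw [hkerL] at hle
        have hle' : P₀.P.asIdeal ≤ P.P.asIdeal := hle.trans (ker_algebraMap_nrm P.P).le
        exact hne (eq_of_le' hdim hle').symm)
  have hnoeth : IsNoetherianRing E := IsNoetherianRing.of_finite A E
  obtain ⟨Q, hQ⟩ : ∃ Q : Pt A n, RingHom.ker (algebraMap A E) = Q.P.asIdeal :=
    ⟨⟨⟨RingHom.ker (algebraMap A E), RingHom.ker_isPrime _⟩, hht⟩, rfl⟩
  have hneE : ∀ s : A, algebraMap A (Nrm P.P) s ≠ 0 → algebraMap A E s ≠ 0 := by
    intro s hs h0
    apply hs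
    rw [← ψ₁.commutes, h0, map_zero]
  obtain ⟨_, _, _⟩ := exists_model Q.P E hQ (fun e => by
    obtain ⟨s, a, hs, hsa⟩ := hbirE e
    exact ⟨s, a, hneE s hs, hsa⟩)
  -- units of `E`
  have hunitE : ∀ e : E, IsUnit (ψ₁ e) → IsUnit e := fun e he =>
    isUnit_of_map (ψ₁ : E →+* Nrm P.P) hψ₁ hmaxE he
  obtain ⟨c, hcu, hcf⟩ : ∃ c : E, ψ₁ c = u ∧ f₂ (ψ₂ c) = f₁ u := by
    obtain ⟨b₂, hb₂⟩ := h₂ (f₁ u)
    obtain ⟨c, hc1, hc2⟩ := hlift u b₂ hb₂.symm
    exact ⟨c, hc1, by rw [hc2, hb₂]⟩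
  have hc : IsUnit c := hunitE c (by rw [hcu]; exact u.isUnit)
  obtain ⟨v, hv⟩ := hass₂
  obtain ⟨e, he, hev⟩ : ∃ e : E, IsUnit e ∧ ψ₂ e = v := by
    obtain ⟨b, hb⟩ := h₁ (f₂ v)
    have hbx : b ∉ Ideal.span {x} := by
      rw [← hk₁, RingHom.mem_ker, hb]
      exact (v.isUnit.map f₂).ne_zero
    obtain ⟨k, hk⟩ := exists_unit_lift hfinM hmax hbx
    have hfx : f₁ x = 0 := by
      rw [← RingHom.mem_ker, hk₁]; exact Ideal.mem_span_singleton_self x
    obtain ⟨e, he1, he2⟩ := hlift (b + x * k) v (by rw [map_add, map_mul, hfx, zero_mul, add_zero, hb])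
    exact ⟨e, hunitE e (by rw [he1]; exact hk), he2⟩
  -- the adjusted equation of the first curve
  have hspan : Ideal.span {g₁ * e} = Ideal.span {g₁} :=
    Ideal.span_singleton_mul_right_unit he g₁
  have hg₁' : Prime (g₁ * e) := (associated_mul_unit_right g₁ e he).prime hg₁
  have hker₁' : RingHom.ker ψ₁ = Ideal.span {g₁ * e} := hker₁.trans hspan.symm
  have hψ₂g : ψ₂ (g₁ * e) = algebraMap (A ⧸ P₀.P.asIdeal) L t := by
    rw [map_mul, hev, hv]
  have hcomap₁ : (Ideal.span {g₁ * e}).comap (algebraMap A E) = P.P.asIdeal := by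
    rw [← hker₁']
    refine Eq.trans ?_ (ker_algebraMap_nrm P.P)
    ext x
    rw [Ideal.mem_comap, RingHom.mem_ker, RingHom.mem_ker, AlgHom.commutes]
  have hcomap₂ : (Ideal.span {g₂}).comap (algebraMap A E) = P₀.P.asIdeal := by
    rw [← hker₂]
    refine Eq.trans ?_ hkerL
    ext x
    rw [Ideal.mem_comap, RingHom.mem_ker, RingHom.mem_ker, AlgHom.commutes]
  have hgq₁ : ∀ P' : Pt A (n + 1), P' ≠ P → ∀ q : Ideal E, q.IsPrime →
      q.comap (algebraMap A E) = P'.P.asIdeal → g₁ * e ∉ q := by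
    intro P' hP' q hq hqc hgq
    apply hP'
    refine (eq_of_le' hdim ?_).symm
    rw [← hcomap₁, ← hqc]
    exact Ideal.comap_mono ((Ideal.span_singleton_le_iff_mem _).2 hgq)
  have hgq₂ : ∀ P' : Pt A (n + 1), P' ≠ P₀ → ∀ q : Ideal E, q.IsPrime →
      q.comap (algebraMap A E) = P'.P.asIdeal → g₂ ∉ q := by
    intro P' hP' q hq hqc hgq
    apply hP'
    refine (eq_of_le' hdim ?_).symm
    rw [← hcomap₂, ← hqc]
    exact Ideal.comap_mono ((Ideal.span_singleton_le_iff_mem _).2 hgq)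
  -- the unit of the regular curve
  have hyu : IsUnit (Algebra.norm (A ⧸ P₀.P.asIdeal) (ψ₂ c)) := (hc.map ψ₂).map _
  obtain ⟨y, hy⟩ : ∃ y : (A ⧸ P₀.P.asIdeal)ˣ, (y : A ⧸ P₀.P.asIdeal) =
      Algebra.norm (A ⧸ P₀.P.asIdeal) (ψ₂ c) := ⟨hyu.unit, rfl⟩
  obtain ⟨w, hw⟩ := hass₁.symm
  let K' := FractionRing L
  refine ⟨w, y, ?_, ?_⟩
  · rw [hy, ← hcf]
    refine (norm_residue_eq ρ ?_ ?_ (f₂ : L →+* F) h₂ ?_ ?_ (ψ₂ c)).symm
    · intro z
      obtain ⟨a, rfl⟩ := algebraMap_kappa_closedPoint_surjective (A := A) z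
      exact ⟨Ideal.Quotient.mk _ a, hρ a⟩
    · have hsurj : Function.Surjective ρ := by
        intro z
        obtain ⟨a, rfl⟩ := algebraMap_kappa_closedPoint_surjective (A := A) z
        exact ⟨Ideal.Quotient.mk _ a, hρ a⟩
      exact IsLocalRing.eq_maximalIdeal (RingHom.ker_isMaximal_of_surjective ρ hsurj)
    · rw [ht, Ideal.map_span, Set.image_singleton, ← htL]
      exact hk₂
    · intro d
      obtain ⟨a, rfl⟩ := Ideal.Quotient.mk_surjective d
      rw [hρ, ← IsScalarTower.algebraMap_apply A (P178.kappa (closedPoint A)) F]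
      have h3 : algebraMap (A ⧸ P₀.P.asIdeal) L (Ideal.Quotient.mk P₀.P.asIdeal a) =
        algebraMap A L a := (IsScalarTower.algebraMap_apply A (A ⧸ P₀.P.asIdeal) L a).symm
      rw [h3]
      exact f₂.commutes a
  · have key : (Pi.single P (sym (un P.P w * el _ x hx.ne_zero)⁻¹ (un P.P u)) +
        Pi.single P₀ (sym (el _ t ht0) (un P₀.P y)) :
          (P : Pt A (n + 1)) → MilnorK₂ (P178.kappa P.P)) ∈ bdG A n (n + 1) := by
      refine mem_bdG Q (el _ (g₁ * e) hg₁'.ne_zero) (el _ g₂ hg₂.ne_zero) (el _ c hc.ne_zero) _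
        fun P' => ?_
      by_cases hP' : P' = P
      · subst hP'
        rw [Pi.add_apply, Pi.single_eq_same, Pi.single_eq_of_ne hne, add_zero]
        have h3 := localAt_left Q.P P'.P hg₁' hcomap₁ (toKappa P'.P ψ₁)
          (toKappa_algebraMap P'.P ψ₁) ((ker_toKappa P'.P ψ₁).trans hker₁')
          (toKappa_frac P'.P ψ₁ hψ₁) (b := g₂) (c := c)
          (x := un P'.P w * el _ x hx.ne_zero) (by
            rw [toKappa_apply, ← hw, map_mul, mul_comm]
            rfl) (hgq₂ P' hne) (fun q hq _ => notMem_of_isUnit hc q hq)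
        rw [Algebra.norm_self, toKappa_apply, hcu, MonoidHom.id_apply] at h3
        have h2 : toUnit (algebraMap (Nrm P'.P) (P178.kappa P'.P) u) = un P'.P u := by
          ext
          rw [Bridge.toUnit_val]
          · rfl
          · exact (un P'.P u).ne_zero
        rw [h2] at h3
        exact h3
      · by_cases hP'₀ : P' = P₀
        · subst hP'₀
          rw [Pi.add_apply, Pi.single_eq_same, Pi.single_eq_of_ne hP', zero_add]
          have h3 := localAt_right Q.P P'.P hg₂ hcomap₂ (F := K')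
            ((algebraMap L K').comp (ψ₂ : E →+* L)) (fun c => by
              change algebraMap L K' (ψ₂ (algebraMap A E c)) = _
              rw [AlgHom.commutes, IsScalarTower.algebraMap_apply A (A ⧸ P'.P.asIdeal) L,
                IsScalarTower.algebraMap_apply A (A ⧸ P'.P.asIdeal) (P178.kappa P'.P),
                ← IsScalarTower.algebraMap_apply (A ⧸ P'.P.asIdeal) L K',
                ← IsScalarTower.algebraMap_apply (A ⧸ P'.P.asIdeal) (P178.kappa P'.P) K'])
            (by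
              rw [← hker₂]
              ext c
              rw [RingHom.mem_ker, RingHom.mem_ker]
              exact IsFractionRing.to_map_eq_zero_iff (R := L) (K := K') (x := ψ₂ c))
            (by
              intro y
              obtain ⟨r, s, hs, rfl⟩ := IsFractionRing.div_surjective (A := L) y
              obtain ⟨r, rfl⟩ := hψ₂ r
              obtain ⟨s, rfl⟩ := hψ₂ s
              refine ⟨r, s, ?_, rfl⟩
              change algebraMap L K' (ψ₂ s) ≠ 0
              rw [Ne, IsFractionRing.to_map_eq_zero_iff]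
              exact nonZeroDivisors.ne_zero hs) (b := g₁ * e) (c := c)
            (x := el _ t ht0) (by
              change algebraMap L K' (ψ₂ (g₁ * e)) = algebraMap (P178.kappa P'.P) K'
                (algebraMap (A ⧸ P'.P.asIdeal) (P178.kappa P'.P) t)
              rw [hψ₂g, ← IsScalarTower.algebraMap_apply (A ⧸ P'.P.asIdeal) L K',
                ← IsScalarTower.algebraMap_apply (A ⧸ P'.P.asIdeal) (P178.kappa P'.P) K'])
            (hgq₁ P' hne.symm) (fun q hq _ => notMem_of_isUnit hc q hq)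
          have h4 : Algebra.norm (P178.kappa P'.P) (((algebraMap L K').comp (ψ₂ : E →+* L)) c) =
              algebraMap (A ⧸ P'.P.asIdeal) (P178.kappa P'.P) y := by
            rw [hy]
            exact norm_frac (A ⧸ P'.P.asIdeal) L (P178.kappa P'.P) K' (ψ₂ c)
          rw [h4] at h3
          have h2 : toUnit (algebraMap (A ⧸ P'.P.asIdeal) (P178.kappa P'.P) y) = un P'.P y := by
            ext
            rw [Bridge.toUnit_val]
            · rfl
            · exact (un P'.P y).ne_zero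
          rw [h2] at h3
          exact h3
        · rw [Pi.add_apply, Pi.single_eq_of_ne hP', Pi.single_eq_of_ne hP'₀, add_zero]
          exact localAt_zero Q.P P'.P (hgq₁ P' hP') (hgq₂ P' hP'₀)
            (fun q hq _ => notMem_of_isUnit hc q hq)
    rw [sym_inv_left, Pi.single_neg] at key
    have := neg_mem key
    rw [neg_add, neg_neg] at this
    rw [sub_eq_add_neg]
    exact this

end relation

end

end Vale.Agent.P178.All
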