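import Vale.Agent.P178.All.Sym

/-!
Symbols of `K₃` whose residue is computed on a birational model.
-/

namespace Vale.Agent.P178.All

open IsLocalRing Vale.Agent.P178 Vale.Agent.P178.Gersten

universe u

variable {A : Type u} [CommRing A]

/-- Passage between the two notions of place. -/
theorem isBd₃_of_old (Q : PrimeSpectrum A) (h : ℕ) (a b c : (P178.kappa Q)ˣ)
    (w : (P : Pt A h) → MilnorK₂ (P178.kappa P.P))
    (hw : ∀ P : Pt A h, ∃ z : P178.Place Q P.P → MilnorK₂ (P178.kappa P.P),
      (∀ v : P178.Place Q P.P, v.val (c : P178.kappa Q) = 0 ∧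
        IsNorm v.resMap (v.tame (a : P178.kappa Q) (b : P178.kappa Q))
          (v.res (c : P178.kappa Q)) (z v)) ∧
      {v | z v ≠ 0}.Finite ∧ w P = ∑ᶠ v, z v) :
    IsBd₃ Q h a b c w := by
  intro P
  obtain ⟨z, hz1, hz2, hz3⟩ := hw P
  let e : P178.Place Q P.P ≃ Gersten.Place (Gersten.toKappa Q) (Gersten.toKappa P.P) :=
    Equiv.ofBijective Bridge.toG Bridge.toG_bijective
  refine ⟨fun v => z (e.symm v), ?_, ?_, ?_⟩
  · intro v
    obtain ⟨v, rfl⟩ := e.surjective v
    simp only [Equiv.symm_apply_apply]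
    exact hz1 v
  · have h1 : {v | z (e.symm v) ≠ 0} = e.symm ⁻¹' {v | z v ≠ 0} := rfl
    have h2 : ({v | z (e.symm v) ≠ 0}).Finite := by
      rw [h1]
      exact hz2.preimage e.symm.injective.injOn
    exact h2
  · rw [hz3]
    exact (finsum_comp_equiv (f := z) e.symm).symm

variable (Q P : PrimeSpectrum A)
variable {R : Type u} [CommRing R] [Algebra A R] [Algebra.IsIntegral A R]
  [Algebra R (P178.kappa Q)] [IsScalarTower A R (P178.kappa Q)]

/-- The local condition at one prime. -/
def LocalAt (a b c : P178.kappa Q) (y : MilnorK₂ (P178.kappa P)) : Prop :=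
  ∃ z : P178.Place Q P → MilnorK₂ (P178.kappa P),
    (∀ v : P178.Place Q P, v.val c = 0 ∧ IsNorm v.resMap (v.tame a b) (v.res c) (z v)) ∧
      {v | z v ≠ 0}.Finite ∧ y = ∑ᶠ v, z v

theorem isNorm_one {K F : Type u} [Field K] [Field F] (φ : K →+* F) (y : F) :
    IsNorm φ 1 y 0 := Or.inl ⟨1, by rw [Units.val_one, map_one], (sym_one_left _).symm⟩

/-- No contribution where the first two entries are units. -/
theorem localAt_zero {a b c : R}
    (ha : ∀ q : Ideal R, q.IsPrime → q.comap (algebraMap A R) = P.asIdeal → a ∉ q)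
    (hb : ∀ q : Ideal R, q.IsPrime → q.comap (algebraMap A R) = P.asIdeal → b ∉ q)
    (hc : ∀ q : Ideal R, q.IsPrime → q.comap (algebraMap A R) = P.asIdeal → c ∉ q) :
    LocalAt Q P (algebraMap R (P178.kappa Q) a) (algebraMap R (P178.kappa Q) b)
      (algebraMap R (P178.kappa Q) c) 0 := by
  refine ⟨fun _ => 0, fun v => ⟨?_, ?_⟩, ?_, ?_⟩
  · exact v.val_of_notMem (hc _ inferInstance (v.comap_centerIn R))
  · rw [v.tame_of_units]
    · exact isNorm_one _ _
    · exact v.val_of_notMem (ha _ inferInstance (v.comap_centerIn R))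
    · exact v.val_of_notMem (hb _ inferInstance (v.comap_centerIn R))
  · simp
  · rw [finsum_zero]

variable [IsDomain R] [IsFractionRing R (P178.kappa Q)] [IsNoetherianRing R] {g : R}
  (hg : Prime g) (hP : (Ideal.span {g}).comap (algebraMap A R) = P.asIdeal)
  {F : Type u} [Field F] [Algebra (P178.kappa P) F] (ψ : R →+* F)
  (hA : ∀ a : A, ψ (algebraMap A R a) =
    algebraMap (P178.kappa P) F (algebraMap A (P178.kappa P) a))
  (hker : RingHom.ker ψ = Ideal.span {g})
  (hfrac : ∀ y : F, ∃ r s : R, ψ s ≠ 0 ∧ y = ψ r / ψ s)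

include hA hker hfrac in
theorem residue_eq (v : P178.Place Q P) (hv : v.centerIn R = Ideal.span {g}) (hg : Prime g)
    {b : R} {x : P178.kappa P} (hx : ψ b = algebraMap (P178.kappa P) F x) :
    IsLocalRing.residue v.V (v.ofModel R b) = v.resMap x := by
  obtain ⟨e, -, he, hc⟩ := v.exists_residue_equiv hg hv ψ hA hker hfrac
  rw [← he, hx, ← hc]
  rfl

include hg hP hA hker hfrac in
/-- The residue of `{b, g, c}`, where `b` and `c` are units and the residue of `b` lies in the
residue field of `P`. -/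
theorem localAt_right {b c : R} {x : (P178.kappa P)ˣ}
    (hx : ψ b = algebraMap (P178.kappa P) F x)
    (hb : ∀ q : Ideal R, q.IsPrime → q.comap (algebraMap A R) = P.asIdeal → b ∉ q)
    (hc : ∀ q : Ideal R, q.IsPrime → q.comap (algebraMap A R) = P.asIdeal → c ∉ q) :
    LocalAt Q P (algebraMap R (P178.kappa Q) b) (algebraMap R (P178.kappa Q) g)
      (algebraMap R (P178.kappa Q) c)
      (sym x (toUnit (Algebra.norm (P178.kappa P) (ψ c)))) := by
  classical
  let v₀ := placeOf Q P hg hP
  have hv₀ : v₀.centerIn R = Ideal.span {g} := centerIn_placeOf Q P hg hP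
  refine ⟨fun v => if v = v₀ then sym x (toUnit (Algebra.norm (P178.kappa P) (ψ c))) else 0,
    fun v => ⟨?_, ?_⟩, ?_, ?_⟩
  · exact v.val_of_notMem (hc _ inferInstance (v.comap_centerIn R))
  · by_cases hv : v = v₀
    · subst hv
      beta_reduce
      rw [if_pos rfl, v₀.tame_right (val_placeOf_self Q P hg hP)
        (hb _ inferInstance (v₀.comap_centerIn R)),
        residue_eq Q P ψ hA hker hfrac v₀ hv₀ hg hx]
      refine Or.inl ⟨x, rfl, ?_⟩
      congr 2
      rw [v₀.res_algebraMap]
      exact (v₀.norm_residue hg hv₀ ψ hA hker hfrac c).symm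
    · have hv' : v.centerIn R ≠ Ideal.span {g} := fun h => hv (v.eq_of_center hg h hv₀)
      beta_reduce
      rw [if_neg hv, v.tame_of_units]
      · exact isNorm_one _ _
      · exact v.val_of_notMem (hb _ inferInstance (v.comap_centerIn R))
      · exact v.val_of_notMem (notMem_center_of_ne Q P hg hP hv')
  · refine (Set.finite_singleton v₀).subset fun v hv => ?_
    by_contra h
    exact hv (if_neg h)
  · rw [finsum_eq_single _ v₀ (fun v hv => if_neg hv), if_pos rfl]

include hg hP hA hker hfrac in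
/-- The residue of `{g, b, c}`, where `b` and `c` are units and the residue of `b` lies in the
residue field of `P`. -/
theorem localAt_left {b c : R} {x : (P178.kappa P)ˣ}
    (hx : ψ b = algebraMap (P178.kappa P) F x)
    (hb : ∀ q : Ideal R, q.IsPrime → q.comap (algebraMap A R) = P.asIdeal → b ∉ q)
    (hc : ∀ q : Ideal R, q.IsPrime → q.comap (algebraMap A R) = P.asIdeal → c ∉ q) :
    LocalAt Q P (algebraMap R (P178.kappa Q) g) (algebraMap R (P178.kappa Q) b)
      (algebraMap R (P178.kappa Q) c)
      (sym x⁻¹ (toUnit (Algebra.norm (P178.kappa P) (ψ c)))) := by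
  classical
  let v₀ := placeOf Q P hg hP
  have hv₀ : v₀.centerIn R = Ideal.span {g} := centerIn_placeOf Q P hg hP
  refine ⟨fun v => if v = v₀ then sym x⁻¹ (toUnit (Algebra.norm (P178.kappa P) (ψ c))) else 0,
    fun v => ⟨?_, ?_⟩, ?_, ?_⟩
  · exact v.val_of_notMem (hc _ inferInstance (v.comap_centerIn R))
  · by_cases hv : v = v₀
    · subst hv
      beta_reduce
      rw [if_pos rfl, v₀.tame_left (val_placeOf_self Q P hg hP)
        (hb _ inferInstance (v₀.comap_centerIn R)),
        residue_eq Q P ψ hA hker hfrac v₀ hv₀ hg hx]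
      refine Or.inl ⟨x⁻¹, ?_, ?_⟩
      · rw [Units.val_inv_eq_inv_val, map_inv₀]
      congr 2
      rw [v₀.res_algebraMap]
      exact (v₀.norm_residue hg hv₀ ψ hA hker hfrac c).symm
    · have hv' : v.centerIn R ≠ Ideal.span {g} := fun h => hv (v.eq_of_center hg h hv₀)
      beta_reduce
      rw [if_neg hv, v.tame_of_units]
      · exact isNorm_one _ _
      · exact v.val_of_notMem (notMem_center_of_ne Q P hg hP hv')
      · exact v.val_of_notMem (hb _ inferInstance (v.comap_centerIn R))
  · refine (Set.finite_singleton v₀).subset fun v hv => ?_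
    by_contra h
    exact hv (if_neg h)
  · rw [finsum_eq_single _ v₀ (fun v hv => if_neg hv), if_pos rfl]

end Vale.Agent.P178.All
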