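import Vale.Agent.P178.All.KTwo
import Vale.Agent.P178.Bdl.B1

/-!
Identities between symbols.
-/

namespace Vale.Agent.P178.Gersten

open IsLocalRing

universe u

variable {F : Type u} [Field F]

theorem sym_eq_of_mem {x : FreeAbelianGroup (Fˣ × Fˣ)} (h : x ∈ K₂Rel F) :
    (QuotientAddGroup.mk' (K₂Rel F) x : MilnorK₂ F) = 0 :=
  (QuotientAddGroup.eq_zero_iff _).2 h

theorem sym_mul_left (a a' b : Fˣ) : sym (a * a') b = sym a b + sym a' b := by
  have h := sym_eq_of_mem (F := F) (x := .of (a * a', b) - .of (a, b) - .of (a', b))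
    (AddSubgroup.subset_closure (Or.inl ⟨a, a', b, rfl⟩))
  rw [map_sub, map_sub, sub_sub, sub_eq_zero] at h
  exact h

theorem sym_mul_right (a b b' : Fˣ) : sym a (b * b') = sym a b + sym a b' := by
  have h := sym_eq_of_mem (F := F) (x := .of (a, b * b') - .of (a, b) - .of (a, b'))
    (AddSubgroup.subset_closure (Or.inr (Or.inl ⟨a, b, b', rfl⟩)))
  rw [map_sub, map_sub, sub_sub, sub_eq_zero] at h
  exact h

theorem sym_one_left (b : Fˣ) : sym 1 b = 0 := by
  have h := sym_mul_left (1 : Fˣ) 1 b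
  rw [mul_one] at h
  exact (left_eq_add.1 h)

theorem sym_one_right (a : Fˣ) : sym a 1 = 0 := by
  have h := sym_mul_right a (1 : Fˣ) 1
  rw [mul_one] at h
  exact (left_eq_add.1 h)

theorem sym_inv_left (a b : Fˣ) : sym a⁻¹ b = - sym a b := by
  have h := sym_mul_left a⁻¹ a b
  rw [inv_mul_cancel, sym_one_left] at h
  exact eq_neg_of_add_eq_zero_left h.symm

theorem sym_inv_right (a b : Fˣ) : sym a b⁻¹ = - sym a b := by
  have h := sym_mul_right a b⁻¹ b
  rw [inv_mul_cancel, sym_one_right] at h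
  exact eq_neg_of_add_eq_zero_left h.symm

theorem sym_pow_left (a b : Fˣ) (n : ℕ) : sym (a ^ n) b = n • sym a b := by
  induction n with
  | zero => rw [pow_zero, sym_one_left, zero_smul]
  | succ n ih => rw [pow_succ, sym_mul_left, ih, succ_nsmul]

theorem sym_pow_right (a b : Fˣ) (n : ℕ) : sym a (b ^ n) = n • sym a b := by
  induction n with
  | zero => rw [pow_zero, sym_one_right, zero_smul]
  | succ n ih => rw [pow_succ, sym_mul_right, ih, succ_nsmul]

theorem sym_zpow_left (a b : Fˣ) (n : ℤ) : sym (a ^ n) b = n • sym a b := by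
  cases n with
  | ofNat n => rw [Int.ofNat_eq_natCast, zpow_natCast, sym_pow_left, natCast_zsmul]
  | negSucc n => rw [zpow_negSucc, sym_inv_left, sym_pow_left, negSucc_zsmul]

theorem sym_zpow_right (a b : Fˣ) (n : ℤ) : sym a (b ^ n) = n • sym a b := by
  cases n with
  | ofNat n => rw [Int.ofNat_eq_natCast, zpow_natCast, sym_pow_right, natCast_zsmul]
  | negSucc n => rw [zpow_negSucc, sym_inv_right, sym_pow_right, negSucc_zsmul]

/-- The Steinberg relation. -/
theorem sym_steinberg (a b : Fˣ) (h : (a : F) + (b : F) = 1) : sym a b = 0 := by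
  exact sym_eq_of_mem (AddSubgroup.subset_closure (Or.inr (Or.inr ⟨a, b, h, rfl⟩)))

/-- `{a, -a} = 0`. -/
theorem sym_neg_self (a : Fˣ) : sym a (-a) = 0 := by
  by_cases h1 : a = 1
  · rw [h1, sym_one_left]
  have h1' : (1 : F) - a ≠ 0 := by
    intro h
    exact h1 (Units.ext (sub_eq_zero.1 h).symm)
  have h2' : (1 : F) - (a⁻¹ : Fˣ) ≠ 0 := by
    intro h
    apply h1
    have h3 : ((a⁻¹ : Fˣ) : F) = 1 := (sub_eq_zero.1 h).symm
    have h4 : a⁻¹ = 1 := Units.ext h3
    exact inv_eq_one.1 h4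
  let x : Fˣ := Units.mk0 _ h1'
  let y : Fˣ := Units.mk0 _ h2'
  have h3 : -a = x * y⁻¹ := by
    ext
    rw [Units.val_neg, Units.val_mul, Units.val_inv_eq_inv_val]
    change -(a : F) = (1 - a) * (1 - ((a⁻¹ : Fˣ) : F))⁻¹
    rw [eq_mul_inv_iff_mul_eq₀ h2', mul_sub, neg_mul a.val ((a⁻¹ : Fˣ) : F), Units.mul_inv]
    ring
  have h4 : sym a x = 0 := sym_steinberg a x (by
    change (a : F) + (1 - a) = 1
    ring)
  have h5 : sym a⁻¹ y = 0 := sym_steinberg a⁻¹ y (by
    change ((a⁻¹ : Fˣ) : F) + (1 - ((a⁻¹ : Fˣ) : F)) = 1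
    ring)
  rw [h3, sym_mul_right, h4, zero_add, sym_inv_right]
  rw [sym_inv_left] at h5
  exact h5

/-- `{a, a} = {a, -1}`. -/
theorem sym_self (a : Fˣ) : sym a a = sym a (-1) := by
  have h1 : (a : Fˣ) = (-a) * (-1) := by
    rw [neg_mul_neg, mul_one]
  calc sym a a = sym a ((-a) * (-1)) := by rw [← h1]
    _ = sym a (-1) := by rw [sym_mul_right, sym_neg_self, zero_add]

/-- Symbols are alternating. -/
theorem sym_swap (a b : Fˣ) : sym b a = - sym a b := by
  have h1 := sym_neg_self (a * b)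
  have h2 : -(a * b) = (-a) * b := (neg_mul a b).symm
  have h3 : sym a (-(a * b)) = sym a b := by
    rw [h2, sym_mul_right, sym_neg_self, zero_add]
  have h4 : -(a * b) = (-b) * a := by rw [neg_mul, mul_comm]
  have h5 : sym b (-(a * b)) = sym b a := by
    rw [h4, sym_mul_right, sym_neg_self, zero_add]
  rw [sym_mul_left, h3, h5] at h1
  exact eq_neg_of_add_eq_zero_right h1

/-- The reduction of a symbol at a discrete valuation. -/
theorem sym_expand (p u v : Fˣ) (i j : ℤ) :
    sym (u * p ^ i) (v * p ^ j) =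
      sym u v + sym p (v ^ i * (u ^ j)⁻¹ * (-1) ^ (i * j)) := by
  rw [sym_mul_left, sym_mul_right, sym_mul_right, sym_zpow_left, sym_zpow_left,
    sym_zpow_right, sym_zpow_right, sym_self, sym_swap p u, sym_mul_right, sym_mul_right,
    sym_inv_right, sym_zpow_right, sym_zpow_right, sym_zpow_right, smul_neg, ← mul_smul]
  abel

/-- Symbols `{t, y}` with `y` congruent to `1` modulo `t`. -/
theorem sym_one_add (t a y : Fˣ) (hy : (y : F) = 1 + t * a) : sym t y = - sym (-a) y := by
  have h1 : sym (-a * t) y = 0 := sym_steinberg _ _ (by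
    rw [hy, Units.val_mul, Units.val_neg]
    ring)
  rw [sym_mul_left] at h1
  exact eq_neg_of_add_eq_zero_right h1

end Vale.Agent.P178.Gersten
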